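import Vale.Agent.Lib.P015.Sieve

/-!
Arithmetic of primes congruent to 1 modulo 4 in the Gaussian integers, and the sieve on a line.
-/

namespace Vale.Agent.Lib.P015

open Finset

lemma dvd_of_phi_zero (p : ℕ) [Fact p.Prime] (r : ZMod p) (hr : r * r = -1) (x y : ℤ)
    (h : (x : ZMod p) + r * (y : ZMod p) = 0) : (p : ℤ) ∣ x ^ 2 + y ^ 2 := by
  rw [← ZMod.intCast_zmod_eq_zero_iff_dvd]
  push_cast
  have hx : (x : ZMod p) = - (r * (y : ZMod p)) := by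
    rw [eq_neg_iff_add_eq_zero]; exact h
  rw [hx]
  have : (-(r * (y : ZMod p))) ^ 2 + (y : ZMod p) ^ 2 = (r * r + 1) * (y : ZMod p) ^ 2 := by ring
  rw [this, hr]
  ring

lemma exists_root (p : ℕ) [Fact p.Prime] (hp : p % 4 = 1) (v₁ v₂ : ℤ) (hv : IsCoprime v₁ v₂) :
    ∃ r : ZMod p, r * r = -1 ∧ (v₁ : ZMod p) + r * (v₂ : ZMod p) ≠ 0 := by
  have hsq : IsSquare (-1 : ZMod p) := ZMod.exists_sq_eq_neg_one_iff.mpr (by omega)
  obtain ⟨r, hr⟩ := hsq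
  have hr' : r * r = -1 := hr.symm
  have hp2 : p ≠ 2 := by
    intro h
    rw [h] at hp
    omega
  have h2 : (2 : ZMod p) ≠ 0 := by
    have := ZMod.natCast_eq_zero_iff 2 p
    intro h0
    have h3 : ((2 : ℕ) : ZMod p) = 0 := by exact_mod_cast h0
    rw [this] at h3
    have hp' := Fact.out (p := p.Prime)
    exact hp2 ((Nat.prime_dvd_prime_iff_eq hp' Nat.prime_two).mp h3)
  have hr0 : r ≠ 0 := by
    intro h0
    rw [h0] at hr'
    simp at hr'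
  by_cases h1 : (v₁ : ZMod p) + r * (v₂ : ZMod p) = 0
  · refine ⟨-r, by rw [neg_mul_neg]; exact hr', ?_⟩
    intro h3
    have h4 : (2 : ZMod p) * (v₁ : ZMod p) = 0 := by
      have : (2 : ZMod p) * (v₁ : ZMod p)
          = ((v₁ : ZMod p) + r * (v₂ : ZMod p)) + ((v₁ : ZMod p) + -r * (v₂ : ZMod p)) := by ring
      rw [this, h1, h3, add_zero]
    have h5 : (v₁ : ZMod p) = 0 := (mul_eq_zero.mp h4).resolve_left h2
    have h6 : (v₂ : ZMod p) = 0 := by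
      rw [h5, zero_add] at h1
      exact (mul_eq_zero.mp h1).resolve_left hr0
    obtain ⟨a, b, hab⟩ := hv
    have h7 : ((a * v₁ + b * v₂ : ℤ) : ZMod p) = 1 := by rw [hab]; simp
    push_cast at h7
    rw [h5, h6] at h7
    simp at h7
  · exact ⟨r, hr', h1⟩

/-- A Gaussian prime whose norm is divisible by a rational prime `p` congruent to 1 mod 4
has norm `p`. -/
lemma norm_eq_of_dvd (z : GaussianInt) (hz : Irreducible z) (p : ℕ) (hp : p.Prime)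
    (hp4 : p % 4 = 1) (h : (p : ℤ) ∣ z.re ^ 2 + z.im ^ 2) : z.re ^ 2 + z.im ^ 2 = p := by
  have : Fact p.Prime := ⟨hp⟩
  obtain ⟨a, b, hab⟩ := Nat.Prime.sq_add_sq (p := p) (by omega)
  let π : GaussianInt := ⟨a, b⟩
  have hnorm : ∀ w : GaussianInt, w.norm = w.re ^ 2 + w.im ^ 2 := by
    intro w
    simp [Zsqrtd.norm]
    ring
  have hπn : π.norm = p := by
    rw [hnorm]
    simp only [π]
    exact_mod_cast hab
  have hpne1 : (p : ℤ) ≠ 1 := by
    have := hp.one_lt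
    omega
  have hunit : ∀ w : GaussianInt, w.norm = p → ¬ IsUnit w := by
    intro w hw hu
    have := Zsqrtd.norm_eq_one_iff.mpr hu
    rw [hw] at this
    have h1 := hp.one_lt
    simp at this
    omega
  have hπirr : Irreducible π := by
    refine ⟨hunit π hπn, fun u w huw => ?_⟩
    have h1 : u.norm * w.norm = p := by
      rw [← Zsqrtd.norm_mul, ← huw, hπn]
    have hu0 : 0 ≤ u.norm := Zsqrtd.norm_nonneg (by norm_num) u
    have hw0 : 0 ≤ w.norm := Zsqrtd.norm_nonneg (by norm_num) w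
    have h2 : u.norm.natAbs * w.norm.natAbs = p := by
      have : ((u.norm * w.norm).natAbs) = p := by rw [h1]; simp
      rwa [Int.natAbs_mul] at this
    rcases (Nat.prime_mul_iff.mp (h2 ▸ hp)) with ⟨_, h3⟩ | ⟨_, h3⟩
    · right
      exact Zsqrtd.norm_eq_one_iff.mp h3
    · left
      exact Zsqrtd.norm_eq_one_iff.mp h3
  have hπpr : Prime π := hπirr.prime
  have hconj : ∀ w : GaussianInt, ((w.norm : ℤ) : GaussianInt) = w * star w :=
    fun w => Zsqrtd.norm_eq_mul_conj w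
  have hπdvd : π ∣ z * star z := by
    rw [← hconj, hnorm]
    obtain ⟨c, hc⟩ := h
    rw [hc]
    have h1 : ((p : ℤ) : GaussianInt) = π * star π := by
      rw [← hconj, hπn]
    push_cast at h1 ⊢
    refine ⟨star π * (c : GaussianInt), ?_⟩
    have h2 : ((p : ℕ) : GaussianInt) = π * star π := h1
    rw [h2]
    ring
  have hstarnorm : ∀ w : GaussianInt, (star w).norm = w.norm := fun w => Zsqrtd.norm_conj w
  rcases hπpr.dvd_or_dvd hπdvd with h1 | h1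
  · obtain ⟨c, hc⟩ := h1
    rw [hc] at hz
    have hcu : IsUnit c := (hz.isUnit_or_isUnit rfl).resolve_left (hunit π hπn)
    have hc1 : c.norm = 1 := by
      have h2 := Zsqrtd.norm_eq_one_iff.mpr hcu
      have h3 : 0 ≤ c.norm := Zsqrtd.norm_nonneg (by norm_num) c
      omega
    rw [← hnorm, hc, Zsqrtd.norm_mul, hπn, hc1, mul_one]
  · obtain ⟨c, hc⟩ := h1
    have hz2 : z = star π * star c := by
      have := congrArg star hc
      rwa [star_star, star_mul, mul_comm] at this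
    rw [hz2] at hz
    have hcu : IsUnit (star c) :=
      (hz.isUnit_or_isUnit rfl).resolve_left (hunit (star π) (by rw [hstarnorm, hπn]))
    have hc1 : (star c).norm = 1 := by
      have h2 := Zsqrtd.norm_eq_one_iff.mpr hcu
      have h3 : 0 ≤ (star c).norm := Zsqrtd.norm_nonneg (by norm_num) _
      omega
    rw [← hnorm, hz2, Zsqrtd.norm_mul, hstarnorm, hπn, hc1, mul_one]

/-- The residue classes removed by the prime `p` on a line. -/
lemma exists_classes (p : ℕ) (hp : p.Prime) (hp4 : p % 4 = 1) (k : ℕ) (v₁ v₂ : ℤ)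
    (hv : IsCoprime v₁ v₂) (s₁ s₂ : ℕ → ℤ)
    (hs : ∀ j < k, ∀ l < k, j ≠ l → ¬ (p : ℤ) ∣ (s₁ j - s₁ l) ^ 2 + (s₂ j - s₂ l) ^ 2)
    (x₀ y₀ : ℤ) (T : Finset ℤ)
    (hT : ∀ t ∈ T, ∀ j < k, ¬ (p : ℤ) ∣ (x₀ + t * v₁ + s₁ j) ^ 2 + (y₀ + t * v₂ + s₂ j) ^ 2) :
    ∃ K : Finset (ZMod p), K.card = k ∧ ∀ t ∈ T, (t : ZMod p) ∉ K := by
  have : Fact p.Prime := ⟨hp⟩
  obtain ⟨r, hr, hρ⟩ := exists_root p hp4 v₁ v₂ hv
  set ρ : ZMod p := (v₁ : ZMod p) + r * (v₂ : ZMod p) with hρdef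
  let y : ℕ → ZMod p := fun j =>
    -(((x₀ + s₁ j : ℤ) : ZMod p) + r * ((y₀ + s₂ j : ℤ) : ZMod p)) / ρ
  refine ⟨(range k).image y, ?_, ?_⟩
  · rw [Finset.card_image_of_injOn, Finset.card_range]
    intro j hj l hl hjl
    have hj' : j < k := Finset.mem_range.mp hj
    have hl' : l < k := Finset.mem_range.mp hl
    by_contra hne
    apply hs j hj' l hl' hne
    apply dvd_of_phi_zero p r hr
    have h1 : -(((x₀ + s₁ j : ℤ) : ZMod p) + r * ((y₀ + s₂ j : ℤ) : ZMod p))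
        = -(((x₀ + s₁ l : ℤ) : ZMod p) + r * ((y₀ + s₂ l : ℤ) : ZMod p)) := by
      simpa only [y, div_left_inj' hρ] using hjl
    push_cast at h1 ⊢
    linear_combination -h1
  · intro t ht hmem
    obtain ⟨j, hj, hjt⟩ := Finset.mem_image.mp hmem
    have hj' : j < k := Finset.mem_range.mp hj
    apply hT t ht j hj'
    apply dvd_of_phi_zero p r hr
    have h1 : (t : ZMod p) * ρ = -(((x₀ + s₁ j : ℤ) : ZMod p) + r * ((y₀ + s₂ j : ℤ) : ZMod p)) := by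
      rw [← hjt]
      simp only [y]
      field_simp
    push_cast at h1 ⊢
    rw [hρdef] at h1
    linear_combination h1

/-- The sieve on a line. -/
theorem row_sieve (S : Finset ℕ) (hS : ∀ p ∈ S, p.Prime ∧ p % 4 = 1) (k : ℕ) (hk : ∀ p ∈ S, k ≤ p)
    (v₁ v₂ : ℤ) (hv : IsCoprime v₁ v₂) (s₁ s₂ : ℕ → ℤ)
    (hs : ∀ p ∈ S, ∀ j < k, ∀ l < k, j ≠ l → ¬ (p : ℤ) ∣ (s₁ j - s₁ l) ^ 2 + (s₂ j - s₂ l) ^ 2)
    (x₀ y₀ : ℤ) (A : ℝ) (hA : 0 ≤ A) (a₁ : ℕ)
    (hlo : A ≤ ∑ p ∈ S, (1 : ℝ) / p) (hhi : ∑ p ∈ S, (1 : ℝ) / p ≤ a₁)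
    (T : Finset ℤ)
    (hT : ∀ t ∈ T, ∀ p ∈ S, ∀ j < k,
      ¬ (p : ℤ) ∣ (x₀ + t * v₁ + s₁ j) ^ 2 + (y₀ + t * v₂ + s₂ j) ^ 2)
    (lo hi : ℤ) (hlh : lo ≤ hi) (hTlo : ∀ t ∈ T, lo ≤ t ∧ t ≤ hi) :
    (T.card : ℝ) ≤ ((hi - lo : ℤ) + 1 : ℝ) * (2 * Real.exp (-((k : ℝ) * A)))
        + (1 + (k : ℝ) * S.card) ^ (8 * k * a₁) := by
  have h1 : ∀ p, p ∈ S → ∃ K : Finset (ZMod p), K.card = k ∧ ∀ t ∈ T, (t : ZMod p) ∉ K := by
    intro p hp
    exact exists_classes p (hS p hp).1 (hS p hp).2 k v₁ v₂ hv s₁ s₂ (hs p hp) x₀ y₀ T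
      (fun t ht j hj => hT t ht p hp j hj)
  choose! K hK hK2 using h1
  have h2 := sieve_final S (fun p hp => (hS p hp).1) K k hK hk A hA a₁ hlo hhi lo (hi + 1)
    (by omega)
  have h3 : T ⊆ (Ico lo (hi + 1)).filter (fun t : ℤ => ∀ p ∈ S, (t : ZMod p) ∉ K p) := by
    intro t ht
    rw [Finset.mem_filter, Finset.mem_Ico]
    exact ⟨⟨(hTlo t ht).1, by have := (hTlo t ht).2; omega⟩, fun p hp => hK2 p hp t ht⟩
  have h4 : (T.card : ℝ)
      ≤ (((Ico lo (hi + 1)).filter (fun t : ℤ => ∀ p ∈ S, (t : ZMod p) ∉ K p)).card : ℝ) := by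
    exact_mod_cast Finset.card_le_card h3
  have h5 : ((hi + 1 - lo : ℤ) : ℝ) = ((hi - lo : ℤ) + 1 : ℝ) := by
    push_cast; ring
  rw [h5] at h2
  exact h4.trans h2

end Vale.Agent.Lib.P015
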