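import Vale.Agent.Lib.P015.Arith

/-!
Counting blocks of consecutive vertices of a path, sorted by shape and by row.
-/

namespace Vale.Agent.Lib.P015

open Finset

/-- Along a path with bounded steps the coordinates move slowly. -/
lemma path_lip (X : ℕ → ℤ) (n Δ : ℕ) (hstep : ∀ i, i + 1 < n → |X (i + 1) - X i| ≤ Δ)
    (i d : ℕ) (h : i + d < n) : |X (i + d) - X i| ≤ d * Δ := by
  induction d with
  | zero => simp
  | succ d ih =>
    have h1 := ih (by omega)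
    have h2 := hstep (i + d) (by omega)
    have h3 : X (i + (d + 1)) - X i = (X (i + d + 1) - X (i + d)) + (X (i + d) - X i) := by
      rw [← add_assoc]; ring
    rw [h3]
    refine (abs_add_le _ _).trans ?_
    push_cast
    linarith

/-- The sieve bound for one fibre: blocks with the same shape on the same row. -/
lemma fiber_bound (k Δ M : ℕ) (hk : 1 ≤ k) (S : Finset ℕ) (hS : ∀ p ∈ S, p.Prime ∧ p % 4 = 1)
    (hSp : ∀ p ∈ S, 2 * (k * Δ) ^ 2 < p) (hkp : ∀ p ∈ S, k ≤ p)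
    (A : ℝ) (hA : 0 ≤ A) (a₁ : ℕ)
    (hlo : A ≤ ∑ p ∈ S, (1 : ℝ) / p) (hhi : ∑ p ∈ S, (1 : ℝ) / p ≤ a₁)
    (X Y : ℕ → ℤ) (n : ℕ)
    (hinj : ∀ i < n, ∀ j < n, X i = X j → Y i = Y j → i = j)
    (hstepX : ∀ i, i + 1 < n → |X (i + 1) - X i| ≤ Δ)
    (hstepY : ∀ i, i + 1 < n → |Y (i + 1) - Y i| ≤ Δ)
    (hprime : ∀ i < n, ∀ p ∈ S, (p : ℤ) ∣ X i ^ 2 + Y i ^ 2 → X i ^ 2 + Y i ^ 2 ≤ M)
    (v₁ v₂ a c : ℤ) (hac : a * v₁ + c * v₂ = 1)
    (X₀ W : ℝ) (hX₀ : 0 < X₀) (hW : 0 ≤ W)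
    (hlen : ∀ i < n, ∀ j < n, ∀ s : ℤ, X i - X j = s * v₁ → Y i - Y j = s * v₂ →
      (|(s : ℝ)| + 1) * X₀ ≤ W)
    (F : Finset ℕ) (m : ℕ) (hmn : m * k + 1 ≤ n)
    (hF : ∀ b ∈ F, b < m ∧ ∀ j < k, (M : ℤ) < X (b * k + j) ^ 2 + Y (b * k + j) ^ 2)
    (hsame : ∀ b ∈ F, ∀ b' ∈ F,
      (∀ j < k, X (b * k + j + 1) - X (b * k + j) = X (b' * k + j + 1) - X (b' * k + j) ∧
        Y (b * k + j + 1) - Y (b * k + j) = Y (b' * k + j + 1) - Y (b' * k + j)) ∧
      v₁ * Y (b * k) - v₂ * X (b * k) = v₁ * Y (b' * k) - v₂ * X (b' * k)) :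
    (F.card : ℝ) * X₀ ≤ W * (2 * Real.exp (-((k : ℝ) * A)))
      + X₀ * (1 + (k : ℝ) * S.card) ^ (8 * k * a₁) := by
  have hexp : 0 < 2 * Real.exp (-((k : ℝ) * A)) := by positivity
  have hR : 0 ≤ (1 + (k : ℝ) * S.card) ^ (8 * k * a₁) := by positivity
  rcases F.eq_empty_or_nonempty with hFe | ⟨b₀, hb₀⟩
  · rw [hFe]
    simp only [Finset.card_empty, Nat.cast_zero, zero_mul]
    positivity
  have hidx : ∀ b ∈ F, ∀ j ≤ k, b * k + j < n := by
    intro b hb j hj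
    have h1 := (hF b hb).1
    have h2 : (b + 1) * k ≤ m * k := Nat.mul_le_mul_right k h1
    have h3 : (b + 1) * k = b * k + k := by ring
    omega
  set x₀ := X (b₀ * k) with hx₀
  set y₀ := Y (b₀ * k) with hy₀
  let s₁ : ℕ → ℤ := fun j => X (b₀ * k + j) - x₀
  let s₂ : ℕ → ℤ := fun j => Y (b₀ * k + j) - y₀
  let t : ℕ → ℤ := fun b => (a * X (b * k) + c * Y (b * k)) - (a * x₀ + c * y₀)
  have hrowx : ∀ b ∈ F, X (b * k) = x₀ + t b * v₁ ∧ Y (b * k) = y₀ + t b * v₂ := by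
    intro b hb
    have h := (hsame b hb b₀ hb₀).2
    have hh : v₁ * (Y (b * k) - y₀) - v₂ * (X (b * k) - x₀) = 0 := by
      rw [hx₀, hy₀]; linarith
    simp only [t]
    constructor
    · linear_combination (-(X (b * k) - x₀)) * hac - c * hh
    · linear_combination (-(Y (b * k) - y₀)) * hac + a * hh
  have hshape : ∀ b ∈ F, ∀ j ≤ k, X (b * k + j) = X (b * k) + s₁ j ∧
      Y (b * k + j) = Y (b * k) + s₂ j := by
    intro b hb j hj
    induction j with
    | zero =>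
      simp [s₁, s₂, ← hx₀, ← hy₀]
    | succ j ih =>
      obtain ⟨h1, h2⟩ := ih (by omega)
      obtain ⟨h3, h4⟩ := (hsame b hb b₀ hb₀).1 j (by omega)
      simp only [s₁, s₂] at h1 h2 ⊢
      rw [show b * k + (j + 1) = b * k + j + 1 by ring,
        show b₀ * k + (j + 1) = b₀ * k + j + 1 by ring]
      constructor <;> linarith
  have hvert : ∀ b ∈ F, ∀ j < k, X (b * k + j) = x₀ + t b * v₁ + s₁ j ∧
      Y (b * k + j) = y₀ + t b * v₂ + s₂ j := by
    intro b hb j hj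
    obtain ⟨h1, h2⟩ := hshape b hb j hj.le
    obtain ⟨h3, h4⟩ := hrowx b hb
    constructor <;> linarith
  have hinjt : Set.InjOn t (F : Set ℕ) := by
    intro b hb b' hb' htt
    obtain ⟨h1, h2⟩ := hrowx b hb
    obtain ⟨h3, h4⟩ := hrowx b' hb'
    have h5 := hinj (b * k) (by simpa using hidx b hb 0 (by omega))
      (b' * k) (by simpa using hidx b' hb' 0 (by omega))
      (by rw [h1, h3, htt]) (by rw [h2, h4, htt])
    exact Nat.eq_of_mul_eq_mul_right (by omega) h5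
  let T : Finset ℤ := F.image t
  have hTcard : T.card = F.card := Finset.card_image_of_injOn hinjt
  have hTne : T.Nonempty := ⟨t b₀, Finset.mem_image_of_mem t hb₀⟩
  let lo := T.min' hTne
  let hi := T.max' hTne
  have hlh : lo ≤ hi := Finset.min'_le_max' T hTne
  have hs : ∀ p ∈ S, ∀ j < k, ∀ l < k, j ≠ l →
      ¬ (p : ℤ) ∣ (s₁ j - s₁ l) ^ 2 + (s₂ j - s₂ l) ^ 2 := by
    intro p hp j hj l hl hjl hdvd
    have hsj : s₁ j - s₁ l = X (b₀ * k + j) - X (b₀ * k + l) := by simp only [s₁]; ring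
    have hsj2 : s₂ j - s₂ l = Y (b₀ * k + j) - Y (b₀ * k + l) := by simp only [s₂]; ring
    rw [hsj, hsj2] at hdvd
    have hij : b₀ * k + j < n := hidx b₀ hb₀ j hj.le
    have hil : b₀ * k + l < n := hidx b₀ hb₀ l hl.le
    have hbound : ∀ Z : ℕ → ℤ, (∀ i, i + 1 < n → |Z (i + 1) - Z i| ≤ Δ) →
        |Z (b₀ * k + j) - Z (b₀ * k + l)| ≤ k * Δ := by
      intro Z hZ
      rcases le_total j l with hle | hle
      · have h1 := path_lip Z n Δ hZ (b₀ * k + j) (l - j) (by omega)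
        rw [show b₀ * k + j + (l - j) = b₀ * k + l by omega] at h1
        rw [abs_sub_comm]
        refine h1.trans ?_
        apply mul_le_mul_of_nonneg_right _ (by positivity)
        have : l - j ≤ k := by omega
        exact_mod_cast this
      · have h1 := path_lip Z n Δ hZ (b₀ * k + l) (j - l) (by omega)
        rw [show b₀ * k + l + (j - l) = b₀ * k + j by omega] at h1
        refine h1.trans ?_
        apply mul_le_mul_of_nonneg_right _ (by positivity)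
        have : j - l ≤ k := by omega
        exact_mod_cast this
    have h1 := hbound X hstepX
    have h2 := hbound Y hstepY
    set dx := X (b₀ * k + j) - X (b₀ * k + l) with hdx
    set dy := Y (b₀ * k + j) - Y (b₀ * k + l) with hdy
    have hpos : 0 < dx ^ 2 + dy ^ 2 := by
      by_contra hcon
      have h3 : dx ^ 2 + dy ^ 2 = 0 := by
        have := sq_nonneg dx; have := sq_nonneg dy; omega
      have h4 : dx = 0 := by nlinarith [sq_nonneg dx, sq_nonneg dy]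
      have h5 : dy = 0 := by nlinarith [sq_nonneg dx, sq_nonneg dy]
      have h6 := hinj _ hij _ hil (by rw [hdx] at h4; omega) (by rw [hdy] at h5; omega)
      omega
    have hle := Int.le_of_dvd hpos hdvd
    have hsq1 : dx ^ 2 ≤ ((k : ℤ) * Δ) ^ 2 := by
      rw [sq_le_sq]
      simpa [abs_of_nonneg (show (0 : ℤ) ≤ (k : ℤ) * Δ by positivity)] using h1
    have hsq2 : dy ^ 2 ≤ ((k : ℤ) * Δ) ^ 2 := by
      rw [sq_le_sq]
      simpa [abs_of_nonneg (show (0 : ℤ) ≤ (k : ℤ) * Δ by positivity)] using h2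
    have h7 := hSp p hp
    have h8 : (2 * ((k : ℤ) * Δ) ^ 2) < p := by exact_mod_cast h7
    linarith
  have hT : ∀ τ ∈ T, ∀ p ∈ S, ∀ j < k,
      ¬ (p : ℤ) ∣ (x₀ + τ * v₁ + s₁ j) ^ 2 + (y₀ + τ * v₂ + s₂ j) ^ 2 := by
    intro τ hτ p hp j hj hdvd
    obtain ⟨b, hb, rfl⟩ := Finset.mem_image.mp hτ
    obtain ⟨h1, h2⟩ := hvert b hb j hj
    rw [← h1, ← h2] at hdvd
    have h3 := hprime (b * k + j) (hidx b hb j hj.le) p hp hdvd
    have h4 := (hF b hb).2 j hj
    omega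
  have hmain := row_sieve S hS k hkp v₁ v₂ ⟨a, c, hac⟩ s₁ s₂ hs x₀ y₀ A hA a₁ hlo hhi T hT lo hi hlh
    (fun τ hτ => ⟨Finset.min'_le T τ hτ, Finset.le_max' T τ hτ⟩)
  rw [hTcard] at hmain
  -- length of the row
  obtain ⟨b₁, hb₁, hb₁t⟩ := Finset.mem_image.mp (Finset.min'_mem T hTne)
  obtain ⟨b₂, hb₂, hb₂t⟩ := Finset.mem_image.mp (Finset.max'_mem T hTne)
  have hlenrow : (|((hi - lo : ℤ) : ℝ)| + 1) * X₀ ≤ W := by
    obtain ⟨h1, h2⟩ := hrowx b₁ hb₁
    obtain ⟨h3, h4⟩ := hrowx b₂ hb₂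
    apply hlen (b₂ * k) (by simpa using hidx b₂ hb₂ 0 (by omega))
      (b₁ * k) (by simpa using hidx b₁ hb₁ 0 (by omega))
    · rw [h1, h3]
      show _ = (T.max' hTne - T.min' hTne) * v₁
      rw [← hb₁t, ← hb₂t]; ring
    · rw [h2, h4]
      show _ = (T.max' hTne - T.min' hTne) * v₂
      rw [← hb₁t, ← hb₂t]; ring
  have hnn : (0 : ℝ) ≤ ((hi - lo : ℤ) : ℝ) := by
    have : 0 ≤ hi - lo := by omega
    exact_mod_cast this
  rw [abs_of_nonneg hnn] at hlenrow
  calc (F.card : ℝ) * X₀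
      ≤ ((((hi - lo : ℤ) : ℝ) + 1) * (2 * Real.exp (-((k : ℝ) * A)))
          + (1 + (k : ℝ) * S.card) ^ (8 * k * a₁)) * X₀ :=
        mul_le_mul_of_nonneg_right hmain hX₀.le
    _ = (((hi - lo : ℤ) : ℝ) + 1) * X₀ * (2 * Real.exp (-((k : ℝ) * A)))
          + X₀ * (1 + (k : ℝ) * S.card) ^ (8 * k * a₁) := by ring
    _ ≤ W * (2 * Real.exp (-((k : ℝ) * A)))
          + X₀ * (1 + (k : ℝ) * S.card) ^ (8 * k * a₁) := by
        have := mul_le_mul_of_nonneg_right hlenrow hexp.le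
        linarith

/-- A finite set of integers with small differences is small. -/
lemma card_le_of_diff (R : Finset ℤ) (X₀ : ℝ) (hX₀ : 0 ≤ X₀)
    (h : ∀ x ∈ R, ∀ y ∈ R, |((x - y : ℤ) : ℝ)| + 1 ≤ X₀) : (R.card : ℝ) ≤ X₀ := by
  rcases R.eq_empty_or_nonempty with hR | hR
  · simpa [hR] using hX₀
  · have h1 : R ⊆ Icc (R.min' hR) (R.max' hR) := by
      intro x hx
      exact Finset.mem_Icc.mpr ⟨Finset.min'_le R x hx, Finset.le_max' R x hx⟩
    have h2 : (R.card : ℤ) ≤ ((Icc (R.min' hR) (R.max' hR)).card : ℤ) := by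
      exact_mod_cast Finset.card_le_card h1
    rw [Int.card_Icc] at h2
    have h3 : R.min' hR ≤ R.max' hR := Finset.min'_le_max' R hR
    have h4 := h (R.max' hR) (Finset.max'_mem R hR) (R.min' hR) (Finset.min'_mem R hR)
    have h5 : (((R.max' hR + 1 - R.min' hR).toNat : ℤ)) = R.max' hR + 1 - R.min' hR :=
      Int.toNat_of_nonneg (by omega)
    rw [h5] at h2
    have h6 : (R.card : ℝ) ≤ ((R.max' hR + 1 - R.min' hR : ℤ) : ℝ) := by exact_mod_cast h2
    have h7 : ((R.max' hR + 1 - R.min' hR : ℤ) : ℝ) = ((R.max' hR - R.min' hR : ℤ) : ℝ) + 1 := by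
      push_cast; ring
    have h8 := le_abs_self ((R.max' hR - R.min' hR : ℤ) : ℝ)
    linarith

/-- Counting all the blocks. -/
theorem block_count (k Δ M : ℕ) (hk : 1 ≤ k) (S : Finset ℕ) (hS : ∀ p ∈ S, p.Prime ∧ p % 4 = 1)
    (hSp : ∀ p ∈ S, 2 * (k * Δ) ^ 2 < p) (hkp : ∀ p ∈ S, k ≤ p)
    (A : ℝ) (hA : 0 ≤ A) (a₁ : ℕ)
    (hlo : A ≤ ∑ p ∈ S, (1 : ℝ) / p) (hhi : ∑ p ∈ S, (1 : ℝ) / p ≤ a₁)
    (X Y : ℕ → ℤ) (n : ℕ)
    (hinj : ∀ i < n, ∀ j < n, X i = X j → Y i = Y j → i = j)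
    (hstepX : ∀ i, i + 1 < n → |X (i + 1) - X i| ≤ Δ)
    (hstepY : ∀ i, i + 1 < n → |Y (i + 1) - Y i| ≤ Δ)
    (hprime : ∀ i < n, ∀ p ∈ S, (p : ℤ) ∣ X i ^ 2 + Y i ^ 2 → X i ^ 2 + Y i ^ 2 ≤ M)
    (v₁ v₂ a c : ℤ) (hac : a * v₁ + c * v₂ = 1)
    (X₀ W : ℝ) (hX₀ : 0 < X₀) (hW : 0 ≤ W)
    (hrow : ∀ i < n, ∀ j < n,
      |((v₁ * Y i - v₂ * X i - (v₁ * Y j - v₂ * X j) : ℤ) : ℝ)| + 1 ≤ X₀)
    (hlen : ∀ i < n, ∀ j < n, ∀ s : ℤ, X i - X j = s * v₁ → Y i - Y j = s * v₂ →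
      (|(s : ℝ)| + 1) * X₀ ≤ W) :
    (((n - 1) / k : ℕ) : ℝ) ≤ (2 * M + 1) ^ 2 + (((2 * Δ + 1) ^ 2 : ℕ) : ℝ) ^ k *
      (W * (2 * Real.exp (-((k : ℝ) * A))) + X₀ * (1 + (k : ℝ) * S.card) ^ (8 * k * a₁)) := by
  classical
  have hB0' : 0 ≤ W * (2 * Real.exp (-((k : ℝ) * A)))
      + X₀ * (1 + (k : ℝ) * S.card) ^ (8 * k * a₁) := by positivity
  set m := (n - 1) / k with hm
  have hmn : m * k + 1 ≤ n ∨ n = 0 := by
    rcases Nat.eq_zero_or_pos n with h | h
    · right; exact h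
    · left
      have : m * k ≤ n - 1 := Nat.div_mul_le_self (n - 1) k
      omega
  rcases hmn with hmn | hn0
  swap
  · have : m = 0 := by rw [hm, hn0]; simp
    rw [this]
    simp only [Nat.cast_zero]
    positivity
  have hidx : ∀ b < m, ∀ j ≤ k, b * k + j < n := by
    intro b h1 j hj
    have h2 : (b + 1) * k ≤ m * k := Nat.mul_le_mul_right k h1
    have h3 : (b + 1) * k = b * k + k := by ring
    omega
  let Good := (range m).filter (fun b => ∀ j < k, (M : ℤ) < X (b * k + j) ^ 2 + Y (b * k + j) ^ 2)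
  let Bad := (range m).filter (fun b => ¬ ∀ j < k, (M : ℤ) < X (b * k + j) ^ 2 + Y (b * k + j) ^ 2)
  have hsplit : m = Good.card + Bad.card := by
    have := Finset.card_filter_add_card_filter_not (s := range m)
      (fun b => ∀ j < k, (M : ℤ) < X (b * k + j) ^ 2 + Y (b * k + j) ^ 2)
    simp only [Finset.card_range] at this
    exact this.symm
  -- the bad blocks
  have hBad : (Bad.card : ℝ) ≤ (2 * M + 1) ^ 2 := by
    have h1 : ∀ b ∈ Bad, ∃ j, j < k ∧ X (b * k + j) ^ 2 + Y (b * k + j) ^ 2 ≤ (M : ℤ) := by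
      intro b hb
      have := (Finset.mem_filter.mp hb).2
      push Not at this
      exact this
    choose! J hJ hJ2 using h1
    let B : Finset (ℤ × ℤ) := Icc (-(M : ℤ)) M ×ˢ Icc (-(M : ℤ)) M
    have hB : Bad.card ≤ B.card := by
      refine Finset.card_le_card_of_injOn
        (fun b => (X (b * k + J b), Y (b * k + J b))) ?_ ?_
      · intro b hb
        have hb' : b ∈ Bad := hb
        have h2 := hJ2 b hb'
        have hsq : ∀ u v : ℤ, u ^ 2 + v ^ 2 ≤ (M : ℤ) → u ∈ Icc (-(M : ℤ)) M := by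
          intro u v huv
          rw [Finset.mem_Icc]
          have h3 := sq_nonneg v
          constructor <;> nlinarith [sq_nonneg (u - 1), sq_nonneg (u + 1)]
        simp only [B, Finset.coe_product, Set.mem_prod, Finset.mem_coe]
        exact ⟨hsq _ _ h2, hsq _ _ (by rw [add_comm]; exact h2)⟩
      · intro b hb b' hb' hbb
        have hb1 : b ∈ Bad := hb
        have hb2 : b' ∈ Bad := hb'
        have h3 := Finset.mem_range.mp (Finset.mem_filter.mp hb1).1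
        have h4 := Finset.mem_range.mp (Finset.mem_filter.mp hb2).1
        have h5 := hinj _ (hidx b h3 _ (hJ b hb1).le) _ (hidx b' h4 _ (hJ b' hb2).le)
          (congrArg Prod.fst hbb) (congrArg Prod.snd hbb)
        have h6 := hJ b hb1
        have h7 := hJ b' hb2
        by_contra hne
        rcases Nat.lt_or_gt_of_ne hne with hlt | hlt
        · have : (b + 1) * k ≤ b' * k := Nat.mul_le_mul_right k hlt
          have h8 : (b + 1) * k = b * k + k := by ring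
          omega
        · have : (b' + 1) * k ≤ b * k := Nat.mul_le_mul_right k hlt
          have h8 : (b' + 1) * k = b' * k + k := by ring
          omega
    have h2 : B.card = (2 * M + 1) ^ 2 := by
      simp only [B, Finset.card_product, Int.card_Icc]
      have : ((M : ℤ) + 1 - -(M : ℤ)).toNat = 2 * M + 1 := by omega
      rw [this]; ring
    rw [h2] at hB
    exact_mod_cast hB
  -- the good blocks
  let Box : Finset (ℤ × ℤ) := Icc (-(Δ : ℤ)) Δ ×ˢ Icc (-(Δ : ℤ)) Δ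
  have hBox : Box.card = (2 * Δ + 1) ^ 2 := by
    simp only [Box, Finset.card_product, Int.card_Icc]
    have : ((Δ : ℤ) + 1 - -(Δ : ℤ)).toNat = 2 * Δ + 1 := by omega
    rw [this]; ring
  let shape : ℕ → (Fin k → ℤ × ℤ) := fun b j =>
    (X (b * k + j + 1) - X (b * k + j), Y (b * k + j + 1) - Y (b * k + j))
  let Rows : Finset ℤ := Good.image (fun b => v₁ * Y (b * k) - v₂ * X (b * k))
  have hRows : (Rows.card : ℝ) ≤ X₀ := by
    apply card_le_of_diff Rows X₀ hX₀.le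
    intro x hx y hy
    obtain ⟨b, hb, rfl⟩ := Finset.mem_image.mp hx
    obtain ⟨b', hb', rfl⟩ := Finset.mem_image.mp hy
    have hb1 := Finset.mem_range.mp (Finset.mem_filter.mp hb).1
    have hb2 := Finset.mem_range.mp (Finset.mem_filter.mp hb').1
    exact hrow _ (by simpa using hidx b hb1 0 (by omega)) _ (by simpa using hidx b' hb2 0 (by omega))
  let Φ : ℕ → (Fin k → ℤ × ℤ) × ℤ := fun b => (shape b, v₁ * Y (b * k) - v₂ * X (b * k))
  have himg : Good.image Φ ⊆ (Fintype.piFinset fun _ : Fin k => Box) ×ˢ Rows := by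
    intro y hy
    obtain ⟨b, hb, rfl⟩ := Finset.mem_image.mp hy
    have hb1 := Finset.mem_range.mp (Finset.mem_filter.mp hb).1
    rw [Finset.mem_product]
    refine ⟨?_, Finset.mem_image_of_mem _ hb⟩
    rw [Fintype.mem_piFinset]
    intro j
    have hj : (j : ℕ) + 1 ≤ k := j.2
    have h1 := hidx b hb1 (j + 1) hj
    have h2 := hstepX (b * k + j) (by omega)
    have h3 := hstepY (b * k + j) (by omega)
    simp only [Box, Finset.mem_product, Finset.mem_Icc]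
    rw [abs_le] at h2 h3
    exact ⟨h2, h3⟩
  have himgcard : ((Good.image Φ).card : ℝ) ≤ (((2 * Δ + 1) ^ 2 : ℕ) : ℝ) ^ k * X₀ := by
    have h1 := Finset.card_le_card himg
    rw [Finset.card_product, Fintype.card_piFinset] at h1
    simp only [Finset.prod_const, Finset.card_univ, Fintype.card_fin, hBox] at h1
    have h2 : ((Good.image Φ).card : ℝ) ≤ (((2 * Δ + 1) ^ 2 : ℕ) : ℝ) ^ k * (Rows.card : ℝ) := by
      exact_mod_cast h1
    refine h2.trans ?_
    exact mul_le_mul_of_nonneg_left hRows (by positivity)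
  have hfib : ∀ y ∈ Good.image Φ, ((Good.filter (fun b => Φ b = y)).card : ℝ) * X₀
      ≤ W * (2 * Real.exp (-((k : ℝ) * A))) + X₀ * (1 + (k : ℝ) * S.card) ^ (8 * k * a₁) := by
    intro y _
    apply fiber_bound k Δ M hk S hS hSp hkp A hA a₁ hlo hhi X Y n hinj hstepX hstepY hprime
      v₁ v₂ a c hac X₀ W hX₀ hW hlen _ m hmn
    · intro b hb
      have hb1 := (Finset.mem_filter.mp hb).1
      exact ⟨Finset.mem_range.mp (Finset.mem_filter.mp hb1).1, (Finset.mem_filter.mp hb1).2⟩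
    · intro b hb b' hb'
      have h1 := (Finset.mem_filter.mp hb).2
      have h2 := (Finset.mem_filter.mp hb').2
      have h3 : Φ b = Φ b' := by rw [h1, h2]
      simp only [Φ, Prod.mk.injEq] at h3
      refine ⟨fun j hj => ?_, h3.2⟩
      have h4 := congrFun h3.1 ⟨j, hj⟩
      simp only [shape, Prod.mk.injEq] at h4
      exact h4
  have hGood : (Good.card : ℝ) ≤ (((2 * Δ + 1) ^ 2 : ℕ) : ℝ) ^ k *
      (W * (2 * Real.exp (-((k : ℝ) * A))) + X₀ * (1 + (k : ℝ) * S.card) ^ (8 * k * a₁)) := by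
    set B := W * (2 * Real.exp (-((k : ℝ) * A))) + X₀ * (1 + (k : ℝ) * S.card) ^ (8 * k * a₁)
      with hBdef
    have hB0 : 0 ≤ B := hB0'
    have h1 : (Good.card : ℝ) * X₀ ≤ ((Good.image Φ).card : ℝ) * B := by
      have h2 := Finset.card_eq_sum_card_image Φ Good
      have h3 : (Good.card : ℝ)
          = ∑ y ∈ Good.image Φ, ((Good.filter (fun b => Φ b = y)).card : ℝ) := by
        rw [h2]; push_cast; rfl
      rw [h3, Finset.sum_mul]
      calc ∑ y ∈ Good.image Φ, ((Good.filter (fun b => Φ b = y)).card : ℝ) * X₀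
          ≤ ∑ _y ∈ Good.image Φ, B := Finset.sum_le_sum hfib
        _ = ((Good.image Φ).card : ℝ) * B := by
            rw [Finset.sum_const, nsmul_eq_mul]
    have h4 : (Good.card : ℝ) * X₀ ≤ ((((2 * Δ + 1) ^ 2 : ℕ) : ℝ) ^ k * B) * X₀ := by
      calc (Good.card : ℝ) * X₀ ≤ ((Good.image Φ).card : ℝ) * B := h1
        _ ≤ ((((2 * Δ + 1) ^ 2 : ℕ) : ℝ) ^ k * X₀) * B :=
            mul_le_mul_of_nonneg_right himgcard hB0
        _ = ((((2 * Δ + 1) ^ 2 : ℕ) : ℝ) ^ k * B) * X₀ := by ring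
    exact le_of_mul_le_mul_right h4 hX₀
  have hm2 : (m : ℝ) = (Good.card : ℝ) + Bad.card := by
    rw [hsplit]; push_cast; rfl
  rw [hm2]
  linarith

end Vale.Agent.Lib.P015
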