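import Vale.Agent.Lib.P015.Defs

/-!
The graph `G_D`.
-/

namespace Vale.Agent.Lib.P015

/-- The graph `G_D`: two distinct Gaussian primes (irreducible elements of `ℤ[i]`) are adjacent
when their Euclidean distance is at most `D`. Elements of `ℤ[i]` that are not prime are isolated
vertices of this graph on all of `ℤ[i]`, and play no role. -/
def primeGraph (D : ℝ) : SimpleGraph GaussianInt where
  Adj z w := Irreducible z ∧ Irreducible w ∧ z ≠ w ∧ gdist z w ≤ D
  symm := ⟨fun z w h => ⟨h.2.1, h.1, h.2.2.1.symm, by
    have : gdist w z = gdist z w := by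
      unfold gdist
      congr 1
      ring
    rw [this]
    exact h.2.2.2⟩⟩
  loopless := ⟨fun _ h => h.2.2.1 rfl⟩

end Vale.Agent.Lib.P015
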