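import Vale.Agent.Lib.P015.Tube
import Vale.Agent.Lib.P015.DefsGraph

/-!
Exponential decay of the sizes of the components of `G_D`.
-/

namespace Vale.Agent.Lib.P015

open Finset

/-- A crossing edge on the way from a set to its complement. -/
lemma exists_crossing {V : Type*} (G : SimpleGraph V) (A : Finset V) (a b : V) (ha : a ∈ A)
    (hb : b ∉ A) (h : G.Reachable a b) : ∃ s ∈ A, ∃ u, u ∉ A ∧ G.Adj s u := by
  obtain ⟨p⟩ := h
  induction p with
  | nil => exact absurd ha hb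
  | @cons x y z hxy _ ih =>
    by_cases hy : y ∈ A
    · exact ih hy hb
    · exact ⟨x, ha, y, hy, hxy⟩

/-- Growth of a walk visiting many vertices: a walk of `2 * n` steps visits `n + 1` vertices. -/
lemma walk_growth {V : Type*} [DecidableEq V] (G : SimpleGraph V) (z : V) (T : Finset V)
    (hT : ∀ w ∈ T, G.Reachable z w) (n : ℕ) (hn : n < T.card) :
    ∃ f : ℕ → V, f 0 = z ∧ (∀ i < 2 * n, G.Adj (f i) (f (i + 1))) ∧
      (∀ i ≤ 2 * n, G.Reachable z (f i)) ∧ ((range (2 * n + 1)).image f).card = n + 1 := by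
  induction n with
  | zero =>
    refine ⟨fun _ => z, rfl, fun i hi => by omega, fun i _ => SimpleGraph.Reachable.refl _, ?_⟩
    simp
  | succ n ih =>
    obtain ⟨f, hf0, hfadj, hfr, hfcard⟩ := ih (by omega)
    set A := (range (2 * n + 1)).image f with hA
    have hlt : A.card < T.card := by omega
    obtain ⟨w, hwT, hwA⟩ := Finset.exists_mem_notMem_of_card_lt_card hlt
    have hzA : z ∈ A := by
      rw [← hf0]
      exact Finset.mem_image_of_mem f (Finset.mem_range.mpr (by omega))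
    obtain ⟨s, hs, u, huA, hsu⟩ := exists_crossing G A z w hzA hwA (hT w hwT)
    obtain ⟨m, hm, rfl⟩ := Finset.mem_image.mp hs
    have hm' : m ≤ 2 * n := by
      have := Finset.mem_range.mp hm
      omega
    let g : ℕ → V := fun i => if i ≤ m then f i else if i = m + 1 then u else f (i - 2)
    have hg1 : ∀ i, i ≤ m → g i = f i := fun i hi => by simp [g, hi]
    have hg2 : g (m + 1) = u := by simp [g]
    have hg3 : ∀ i, m + 2 ≤ i → g i = f (i - 2) := fun i hi => by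
      have h1 : ¬ i ≤ m := by omega
      have h2 : ¬ i = m + 1 := by omega
      simp [g, h1, h2]
    refine ⟨g, ?_, ?_, ?_, ?_⟩
    · rw [hg1 0 (by omega), hf0]
    · intro i hi
      rcases Nat.lt_trichotomy i m with h | h | h
      · rw [hg1 i (by omega), hg1 (i + 1) (by omega)]
        exact hfadj i (by omega)
      · subst h
        rw [hg1 i (by omega), hg2]
        exact hsu
      · rcases Nat.lt_or_ge i (m + 2) with h2 | h2
        · have h3 : i = m + 1 := by omega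
          subst h3
          rw [hg2, hg3 (m + 1 + 1) (by omega)]
          simpa using hsu.symm
        · rw [hg3 i h2, hg3 (i + 1) (by omega)]
          have h4 := hfadj (i - 2) (by omega)
          rwa [show i - 2 + 1 = i + 1 - 2 by omega] at h4
    · have hru : G.Reachable z u := (hfr m hm').trans hsu.reachable
      intro i hi
      rcases Nat.lt_trichotomy i (m + 1) with h | h | h
      · rw [hg1 i (by omega)]
        exact hfr i (by omega)
      · rw [h, hg2]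
        exact hru
      · rw [hg3 i (by omega)]
        exact hfr _ (by omega)
    · have himg : (range (2 * (n + 1) + 1)).image g = insert u A := by
        ext v
        simp only [Finset.mem_image, Finset.mem_range, Finset.mem_insert, hA]
        constructor
        · rintro ⟨i, hi, rfl⟩
          rcases Nat.lt_trichotomy i (m + 1) with h | h | h
          · right
            exact ⟨i, by omega, (hg1 i (by omega)).symm⟩
          · left
            rw [h, hg2]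
          · right
            exact ⟨i - 2, by omega, (hg3 i (by omega)).symm⟩
        · rintro (rfl | ⟨i, hi, rfl⟩)
          · exact ⟨m + 1, by omega, hg2⟩
          · rcases Nat.lt_or_ge m i with h | h
            · exact ⟨i + 2, by omega, by rw [hg3 (i + 2) (by omega)]; simp⟩
            · exact ⟨i, by omega, hg1 i h⟩
      rw [himg, Finset.card_insert_of_notMem huA, hfcard]

/-- Choosing indices of distinct values. -/
lemma exists_indices {V : Type*} [DecidableEq V] (f : ℕ → V) (L k : ℕ)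
    (hcard : ((range (L + 1)).image f).card = k) :
    ∃ e : ℕ → ℕ, (∀ j < k, e j ≤ L) ∧ ∀ j < k, ∀ l < k, f (e j) = f (e l) → j = l := by
  have h1 : ∀ v ∈ (range (L + 1)).image f, ∃ i, i ≤ L ∧ f i = v := by
    intro v hv
    obtain ⟨i, hi, rfl⟩ := Finset.mem_image.mp hv
    exact ⟨i, by have := Finset.mem_range.mp hi; omega, rfl⟩
  choose! g hg1 hg2 using h1
  let A := (range (L + 1)).image f
  let E : Fin k ≃ A := (A.equivFinOfCardEq hcard).symm
  refine ⟨fun j => if h : j < k then g (E ⟨j, h⟩ : V) else 0, ?_, ?_⟩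
  · intro j hj
    simp only [hj, dif_pos]
    exact hg1 _ (E ⟨j, hj⟩).2
  · intro j hj l hl hjl
    simp only [hj, hl, dif_pos] at hjl
    rw [hg2 _ (E ⟨j, hj⟩).2, hg2 _ (E ⟨l, hl⟩).2] at hjl
    have := E.injective (Subtype.ext hjl)
    simpa using this

/-- The sieve bound for a fibre of walks with the same steps on the same horizontal line. -/
lemma fiber_clusters (k Δ L R₀ : ℕ) (S : Finset ℕ) (hS : ∀ p ∈ S, p.Prime ∧ p % 4 = 1)
    (hSp : ∀ p ∈ S, 2 * (L * Δ) ^ 2 < p) (hkp : ∀ p ∈ S, k ≤ p)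
    (A : ℝ) (hA : 0 ≤ A) (a₁ : ℕ)
    (hlo : A ≤ ∑ p ∈ S, (1 : ℝ) / p) (hhi : ∑ p ∈ S, (1 : ℝ) / p ≤ a₁)
    (G : Finset GaussianInt) (f : GaussianInt → ℕ → GaussianInt)
    (hf0 : ∀ z ∈ G, f z 0 = z)
    (hstepX : ∀ z ∈ G, ∀ i < L, |(f z (i + 1)).re - (f z i).re| ≤ Δ)
    (hstepY : ∀ z ∈ G, ∀ i < L, |(f z (i + 1)).im - (f z i).im| ≤ Δ)
    (hcard : ∀ z ∈ G, ((range (L + 1)).image (f z)).card = k)
    (hprime : ∀ z ∈ G, ∀ i ≤ L, ∀ p ∈ S, ¬ (p : ℤ) ∣ (f z i).re ^ 2 + (f z i).im ^ 2)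
    (hR : ∀ z ∈ G, |z.re| ≤ R₀)
    (hsame : ∀ z ∈ G, ∀ z' ∈ G, z.im = z'.im ∧ ∀ i < L,
      (f z (i + 1)).re - (f z i).re = (f z' (i + 1)).re - (f z' i).re ∧
      (f z (i + 1)).im - (f z i).im = (f z' (i + 1)).im - (f z' i).im) :
    (G.card : ℝ) ≤ (2 * (R₀ : ℝ) + 1) * (2 * Real.exp (-((k : ℝ) * A)))
      + (1 + (k : ℝ) * S.card) ^ (8 * k * a₁) := by
  rcases G.eq_empty_or_nonempty with hG | ⟨z₀, hz₀⟩
  · rw [hG]
    simp only [Finset.card_empty, Nat.cast_zero]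
    positivity
  obtain ⟨e, he1, he2⟩ := exists_indices (f z₀) L k (hcard z₀ hz₀)
  set x₀ := z₀.re with hx₀
  set y₀ := z₀.im with hy₀
  let s₁ : ℕ → ℤ := fun j => (f z₀ (e j)).re - x₀
  let s₂ : ℕ → ℤ := fun j => (f z₀ (e j)).im - y₀
  have hshape : ∀ z ∈ G, ∀ i ≤ L, (f z i).re = z.re + ((f z₀ i).re - x₀) ∧
      (f z i).im = z.im + ((f z₀ i).im - y₀) := by
    intro z hz i hi
    induction i with
    | zero =>
      rw [hf0 z hz, hf0 z₀ hz₀]
      simp [hx₀, hy₀]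
    | succ i ih =>
      obtain ⟨h1, h2⟩ := ih (by omega)
      obtain ⟨h3, h4⟩ := (hsame z hz z₀ hz₀).2 i (by omega)
      constructor <;> linarith
  let t : GaussianInt → ℤ := fun z => z.re - x₀
  have hinjt : Set.InjOn t (G : Set GaussianInt) := by
    intro z hz z' hz' h
    have h1 := (hsame z hz z' hz').1
    have h2 : z.re = z'.re := by
      simp only [t] at h
      linarith
    exact Zsqrtd.ext h2 h1
  let T : Finset ℤ := G.image t
  have hTcard : T.card = G.card := Finset.card_image_of_injOn hinjt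
  have hs : ∀ p ∈ S, ∀ j < k, ∀ l < k, j ≠ l →
      ¬ (p : ℤ) ∣ (s₁ j - s₁ l) ^ 2 + (s₂ j - s₂ l) ^ 2 := by
    intro p hp j hj l hl hjl hdvd
    have hsj : s₁ j - s₁ l = (f z₀ (e j)).re - (f z₀ (e l)).re := by simp only [s₁]; ring
    have hsj2 : s₂ j - s₂ l = (f z₀ (e j)).im - (f z₀ (e l)).im := by simp only [s₂]; ring
    rw [hsj, hsj2] at hdvd
    have hej := he1 j hj
    have hel := he1 l hl
    have hbound : ∀ Z : ℕ → ℤ, (∀ i, i < L → |Z (i + 1) - Z i| ≤ Δ) →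
        |Z (e j) - Z (e l)| ≤ L * Δ := by
      intro Z hZ
      have hZ' : ∀ i, i + 1 < L + 1 → |Z (i + 1) - Z i| ≤ Δ := fun i hi => hZ i (by omega)
      rcases le_total (e j) (e l) with hle | hle
      · have h1 := path_lip Z (L + 1) Δ hZ' (e j) (e l - e j) (by omega)
        rw [show e j + (e l - e j) = e l by omega] at h1
        rw [abs_sub_comm]
        refine h1.trans ?_
        apply mul_le_mul_of_nonneg_right _ (by positivity)
        have : e l - e j ≤ L := by omega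
        exact_mod_cast this
      · have h1 := path_lip Z (L + 1) Δ hZ' (e l) (e j - e l) (by omega)
        rw [show e l + (e j - e l) = e j by omega] at h1
        refine h1.trans ?_
        apply mul_le_mul_of_nonneg_right _ (by positivity)
        have : e j - e l ≤ L := by omega
        exact_mod_cast this
    have h1 : |(f z₀ (e j)).re - (f z₀ (e l)).re| ≤ L * Δ :=
      hbound (fun i => (f z₀ i).re) (hstepX z₀ hz₀)
    have h2 : |(f z₀ (e j)).im - (f z₀ (e l)).im| ≤ L * Δ :=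
      hbound (fun i => (f z₀ i).im) (hstepY z₀ hz₀)
    set dx := (f z₀ (e j)).re - (f z₀ (e l)).re with hdx
    set dy := (f z₀ (e j)).im - (f z₀ (e l)).im with hdy
    have hpos : 0 < dx ^ 2 + dy ^ 2 := by
      by_contra hcon
      have h3 : dx ^ 2 + dy ^ 2 = 0 := by
        have := sq_nonneg dx; have := sq_nonneg dy; omega
      have h4 : dx = 0 := by nlinarith [sq_nonneg dx, sq_nonneg dy]
      have h5 : dy = 0 := by nlinarith [sq_nonneg dx, sq_nonneg dy]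
      have h6 : f z₀ (e j) = f z₀ (e l) :=
        Zsqrtd.ext (by rw [hdx] at h4; omega) (by rw [hdy] at h5; omega)
      exact hjl (he2 j hj l hl h6)
    have hle := Int.le_of_dvd hpos hdvd
    have hsq1 : dx ^ 2 ≤ ((L : ℤ) * Δ) ^ 2 := by
      rw [sq_le_sq]
      simpa [abs_of_nonneg (show (0 : ℤ) ≤ (L : ℤ) * Δ by positivity)] using h1
    have hsq2 : dy ^ 2 ≤ ((L : ℤ) * Δ) ^ 2 := by
      rw [sq_le_sq]
      simpa [abs_of_nonneg (show (0 : ℤ) ≤ (L : ℤ) * Δ by positivity)] using h2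
    have h7 := hSp p hp
    have h8 : (2 * ((L : ℤ) * Δ) ^ 2) < p := by exact_mod_cast h7
    linarith
  have hT : ∀ τ ∈ T, ∀ p ∈ S, ∀ j < k,
      ¬ (p : ℤ) ∣ (x₀ + τ * 1 + s₁ j) ^ 2 + (y₀ + τ * 0 + s₂ j) ^ 2 := by
    intro τ hτ p hp j hj hdvd
    obtain ⟨z, hz, rfl⟩ := Finset.mem_image.mp hτ
    obtain ⟨h1, h2⟩ := hshape z hz (e j) (he1 j hj)
    have h3 : x₀ + t z * 1 + s₁ j = (f z (e j)).re := by
      simp only [t, s₁]
      rw [h1]; ring
    have h4 : y₀ + t z * 0 + s₂ j = (f z (e j)).im := by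
      simp only [s₂]
      rw [h2, (hsame z hz z₀ hz₀).1]; ring
    rw [h3, h4] at hdvd
    exact hprime z hz (e j) (he1 j hj) p hp hdvd
  have hlh : -(R₀ : ℤ) - x₀ ≤ (R₀ : ℤ) - x₀ := by omega
  have hmain := row_sieve S hS k hkp 1 0 isCoprime_one_left s₁ s₂ hs x₀ y₀ A hA a₁ hlo hhi T hT
    (-(R₀ : ℤ) - x₀) ((R₀ : ℤ) - x₀) hlh
    (fun τ hτ => by
      obtain ⟨z, hz, rfl⟩ := Finset.mem_image.mp hτ
      have := abs_le.mp (hR z hz)
      simp only [t]
      constructor <;> linarith [this.1, this.2])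
  rw [hTcard] at hmain
  have h5 : (((R₀ : ℤ) - x₀ - (-(R₀ : ℤ) - x₀) : ℤ) : ℝ) = 2 * (R₀ : ℝ) := by
    push_cast; ring
  rw [h5] at hmain
  exact hmain

/-- Counting the walks by their steps and their horizontal line. -/
lemma good_clusters (k Δ L R₀ : ℕ) (S : Finset ℕ) (hS : ∀ p ∈ S, p.Prime ∧ p % 4 = 1)
    (hSp : ∀ p ∈ S, 2 * (L * Δ) ^ 2 < p) (hkp : ∀ p ∈ S, k ≤ p)
    (A : ℝ) (hA : 0 ≤ A) (a₁ : ℕ)
    (hlo : A ≤ ∑ p ∈ S, (1 : ℝ) / p) (hhi : ∑ p ∈ S, (1 : ℝ) / p ≤ a₁)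
    (F : Finset GaussianInt) (f : GaussianInt → ℕ → GaussianInt)
    (hf0 : ∀ z ∈ F, f z 0 = z)
    (hstepX : ∀ z ∈ F, ∀ i < L, |(f z (i + 1)).re - (f z i).re| ≤ Δ)
    (hstepY : ∀ z ∈ F, ∀ i < L, |(f z (i + 1)).im - (f z i).im| ≤ Δ)
    (hcard : ∀ z ∈ F, ((range (L + 1)).image (f z)).card = k)
    (hprime : ∀ z ∈ F, ∀ i ≤ L, ∀ p ∈ S, ¬ (p : ℤ) ∣ (f z i).re ^ 2 + (f z i).im ^ 2)
    (hR : ∀ z ∈ F, |z.re| ≤ R₀ ∧ |z.im| ≤ R₀) :
    (F.card : ℝ) ≤ (((2 * Δ + 1) ^ 2 : ℕ) : ℝ) ^ L * (2 * (R₀ : ℝ) + 1) *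
      ((2 * (R₀ : ℝ) + 1) * (2 * Real.exp (-((k : ℝ) * A)))
        + (1 + (k : ℝ) * S.card) ^ (8 * k * a₁)) := by
  classical
  have hB0' : 0 ≤ (2 * (R₀ : ℝ) + 1) * (2 * Real.exp (-((k : ℝ) * A)))
      + (1 + (k : ℝ) * S.card) ^ (8 * k * a₁) := by positivity
  let Box : Finset (ℤ × ℤ) := Icc (-(Δ : ℤ)) Δ ×ˢ Icc (-(Δ : ℤ)) Δ
  have hBox : Box.card = (2 * Δ + 1) ^ 2 := by
    simp only [Box, Finset.card_product, Int.card_Icc]
    have : ((Δ : ℤ) + 1 - -(Δ : ℤ)).toNat = 2 * Δ + 1 := by omega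
    rw [this]; ring
  let Φ : GaussianInt → (Fin L → ℤ × ℤ) × ℤ := fun z =>
    (fun i => ((f z (i + 1)).re - (f z i).re, (f z (i + 1)).im - (f z i).im), z.im)
  let Rows : Finset ℤ := Icc (-(R₀ : ℤ)) R₀
  have hRows : Rows.card = 2 * R₀ + 1 := by
    simp only [Rows, Int.card_Icc]
    omega
  have himg : F.image Φ ⊆ (Fintype.piFinset fun _ : Fin L => Box) ×ˢ Rows := by
    intro y hy
    obtain ⟨z, hz, rfl⟩ := Finset.mem_image.mp hy
    rw [Finset.mem_product]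
    constructor
    · rw [Fintype.mem_piFinset]
      intro i
      have h1 := hstepX z hz i i.2
      have h2 := hstepY z hz i i.2
      rw [abs_le] at h1 h2
      simp only [Box, Finset.mem_product, Finset.mem_Icc]
      exact ⟨h1, h2⟩
    · simp only [Rows, Finset.mem_Icc]
      have := abs_le.mp (hR z hz).2
      exact this
  have himgcard : ((F.image Φ).card : ℝ)
      ≤ (((2 * Δ + 1) ^ 2 : ℕ) : ℝ) ^ L * (2 * (R₀ : ℝ) + 1) := by
    have h1 := Finset.card_le_card himg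
    rw [Finset.card_product, Fintype.card_piFinset] at h1
    simp only [Finset.prod_const, Finset.card_univ, Fintype.card_fin, hBox, hRows] at h1
    have h2 : ((F.image Φ).card : ℝ) ≤ ((((2 * Δ + 1) ^ 2) ^ L * (2 * R₀ + 1) : ℕ) : ℝ) := by
      exact_mod_cast h1
    push_cast at h2 ⊢
    exact h2
  have hfib : ∀ y ∈ F.image Φ, ((F.filter (fun z => Φ z = y)).card : ℝ)
      ≤ (2 * (R₀ : ℝ) + 1) * (2 * Real.exp (-((k : ℝ) * A)))
        + (1 + (k : ℝ) * S.card) ^ (8 * k * a₁) := by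
    intro y _
    have hsub : ∀ z ∈ F.filter (fun z => Φ z = y), z ∈ F := fun z hz => (Finset.mem_filter.mp hz).1
    apply fiber_clusters k Δ L R₀ S hS hSp hkp A hA a₁ hlo hhi _ f
      (fun z hz => hf0 z (hsub z hz))
      (fun z hz => hstepX z (hsub z hz)) (fun z hz => hstepY z (hsub z hz))
      (fun z hz => hcard z (hsub z hz)) (fun z hz => hprime z (hsub z hz))
      (fun z hz => (hR z (hsub z hz)).1)
    intro z hz z' hz'
    have h1 := (Finset.mem_filter.mp hz).2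
    have h2 := (Finset.mem_filter.mp hz').2
    have h3 : Φ z = Φ z' := by rw [h1, h2]
    simp only [Φ, Prod.mk.injEq] at h3
    refine ⟨h3.2, fun i hi => ?_⟩
    have h4 := congrFun h3.1 ⟨i, hi⟩
    simp only [Prod.mk.injEq] at h4
    exact h4
  set B := (2 * (R₀ : ℝ) + 1) * (2 * Real.exp (-((k : ℝ) * A)))
      + (1 + (k : ℝ) * S.card) ^ (8 * k * a₁) with hBdef
  have h2 := Finset.card_eq_sum_card_image Φ F
  have h3 : (F.card : ℝ)
      = ∑ y ∈ F.image Φ, ((F.filter (fun b => Φ b = y)).card : ℝ) := by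
    rw [h2]; push_cast; rfl
  rw [h3]
  calc ∑ y ∈ F.image Φ, ((F.filter (fun b => Φ b = y)).card : ℝ)
      ≤ ∑ _y ∈ F.image Φ, B := Finset.sum_le_sum hfib
    _ = ((F.image Φ).card : ℝ) * B := by rw [Finset.sum_const, nsmul_eq_mul]
    _ ≤ (((2 * Δ + 1) ^ 2 : ℕ) : ℝ) ^ L * (2 * (R₀ : ℝ) + 1) * B :=
        mul_le_mul_of_nonneg_right himgcard hB0'

/-- Vertices reachable from a Gaussian prime are Gaussian primes. -/
lemma irreducible_of_reachable (D : ℝ) (z w : GaussianInt) (hz : Irreducible z)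
    (h : (primeGraph D).Reachable z w) : Irreducible w := by
  obtain ⟨p⟩ := h
  induction p with
  | nil => exact hz
  | cons hxy _ ih => exact ih hxy.2.1

lemma exp_le_pow_self (k : ℕ) (hk : 3 ≤ k) : Real.exp k ≤ (k : ℝ) ^ k := by
  have h1 : Real.exp 1 ≤ (k : ℝ) := by
    have h2 := Real.exp_one_lt_d9
    have h3 : (3 : ℝ) ≤ k := by exact_mod_cast hk
    linarith
  calc Real.exp k = Real.exp 1 ^ k := by rw [← Real.exp_nat_mul]; simp
    _ ≤ (k : ℝ) ^ k := pow_le_pow_left₀ (Real.exp_pos 1).le h1 k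

lemma numeric_clusters_1 (b : ℕ) (hb : 0 < b) (k L : ℕ) (hL : L ≤ 2 * k) (hk : 16 ≤ k) (R : ℝ)
    (hR : 0 ≤ R) (R' : ℝ) (hR' : R' ≤ 5 * R) (hR'0 : 0 ≤ R') :
    (b : ℝ) ^ L * R' * (R' * (2 * Real.exp (-((k : ℝ) * (2 * Real.log (b : ℝ) + 2)))))
      ≤ R ^ 2 * Real.exp (-(k : ℝ)) / 3 := by
  have hbR : (1 : ℝ) ≤ (b : ℝ) := by exact_mod_cast hb
  have hb0 : (0 : ℝ) < (b : ℝ) := by linarith
  have h1 : (b : ℝ) ^ L ≤ (b : ℝ) ^ (2 * k) := pow_le_pow_right₀ hbR hL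
  have hexp1 : (b : ℝ) ^ (2 * k) * Real.exp (-((k : ℝ) * (2 * Real.log (b : ℝ) + 2)))
      = Real.exp (-(2 * k)) := by
    have h2 : (b : ℝ) ^ (2 * k) = Real.exp (((2 * k : ℕ) : ℝ) * Real.log b) := by
      rw [Real.exp_nat_mul, Real.exp_log hb0]
    rw [h2, ← Real.exp_add]
    congr 1
    push_cast
    ring
  have h3 : (150 : ℝ) ≤ Real.exp k := by
    have h4 : (2 : ℝ) ≤ Real.exp 1 := by
      have := Real.exp_one_gt_d9; linarith
    calc (150 : ℝ) ≤ 2 ^ 16 := by norm_num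
      _ ≤ 2 ^ k := pow_le_pow_right₀ (by norm_num) hk
      _ ≤ Real.exp 1 ^ k := pow_le_pow_left₀ (by norm_num) h4 k
      _ = Real.exp k := by rw [← Real.exp_nat_mul]; simp
  have h5 : 150 * Real.exp (-(2 * k)) ≤ Real.exp (-(k : ℝ)) := by
    have h6 : Real.exp (-(2 * k)) * Real.exp k = Real.exp (-(k : ℝ)) := by
      rw [← Real.exp_add]; congr 1; ring
    rw [← h6]
    have := mul_le_mul_of_nonneg_left h3 (Real.exp_pos (-(2 * (k : ℝ)))).le
    linarith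
  have hR2 : R' ^ 2 ≤ 25 * R ^ 2 := by nlinarith
  set E := Real.exp (-((k : ℝ) * (2 * Real.log (b : ℝ) + 2))) with hE
  have hE0 : 0 < E := Real.exp_pos _
  calc (b : ℝ) ^ L * R' * (R' * (2 * E)) = (b : ℝ) ^ L * E * (2 * R' ^ 2) := by ring
    _ ≤ (b : ℝ) ^ (2 * k) * E * (2 * R' ^ 2) := by
        apply mul_le_mul_of_nonneg_right _ (by positivity)
        exact mul_le_mul_of_nonneg_right h1 hE0.le
    _ = Real.exp (-(2 * k)) * (2 * R' ^ 2) := by rw [hexp1]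
    _ ≤ Real.exp (-(2 * k)) * (50 * R ^ 2) :=
        mul_le_mul_of_nonneg_left (by linarith) (Real.exp_pos _).le
    _ ≤ R ^ 2 * Real.exp (-(k : ℝ)) / 3 := by
        have h7 : 0 ≤ R ^ 2 := by positivity
        nlinarith [mul_le_mul_of_nonneg_left h5 h7]

lemma numeric_clusters_2 (b k L T a₁ s : ℕ) (hL : L ≤ 2 * k) (hb : 0 < b) (hbk : b ≤ k)
    (hk : 16 ≤ k) (hs : s ≤ k ^ (3 * T)) (R : ℝ)
    (hR : (k : ℝ) ^ ((4 + (3 * T + 2) * 8 * a₁) * k) ≤ R) (R' : ℝ) (hR' : R' ≤ 5 * R)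
    (hR'0 : 0 ≤ R') :
    (b : ℝ) ^ L * R' * (1 + (k : ℝ) * s) ^ (8 * k * a₁) ≤ R ^ 2 * Real.exp (-(k : ℝ)) / 3 := by
  have hkR : (16 : ℝ) ≤ k := by exact_mod_cast hk
  have hk0 : (0 : ℝ) < k := by linarith
  have hk1 : (1 : ℝ) ≤ k := by linarith
  have hbR : (1 : ℝ) ≤ (b : ℝ) := by exact_mod_cast hb
  have hsZ : (s : ℝ) ≤ (k : ℝ) ^ (3 * T) := by exact_mod_cast hs
  have hZ1 : (1 : ℝ) ≤ (k : ℝ) ^ (3 * T) := one_le_pow₀ hk1
  have hRs : 1 + (k : ℝ) * s ≤ (k : ℝ) ^ (3 * T + 2) := by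
    have h1 : (k : ℝ) * s ≤ (k : ℝ) * (k : ℝ) ^ (3 * T) :=
      mul_le_mul_of_nonneg_left hsZ hk0.le
    have h2 : (k : ℝ) ^ (3 * T + 2) = (k : ℝ) * ((k : ℝ) * (k : ℝ) ^ (3 * T)) := by ring
    have h3 : 1 ≤ (k : ℝ) * (k : ℝ) ^ (3 * T) := by nlinarith
    rw [h2]
    nlinarith
  have hs0 : (0 : ℝ) ≤ 1 + (k : ℝ) * s := by positivity
  have hRk : (1 + (k : ℝ) * s) ^ (8 * k * a₁) ≤ (k : ℝ) ^ ((3 * T + 2) * (8 * k * a₁)) := by
    calc (1 + (k : ℝ) * s) ^ (8 * k * a₁) ≤ ((k : ℝ) ^ (3 * T + 2)) ^ (8 * k * a₁) :=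
          pow_le_pow_left₀ hs0 hRs _
      _ = (k : ℝ) ^ ((3 * T + 2) * (8 * k * a₁)) := (pow_mul _ _ _).symm
  have hbk' : (b : ℝ) ^ L ≤ (k : ℝ) ^ (2 * k) := by
    calc (b : ℝ) ^ L ≤ (k : ℝ) ^ L := pow_le_pow_left₀ (by positivity) (by exact_mod_cast hbk) L
      _ ≤ (k : ℝ) ^ (2 * k) := pow_le_pow_right₀ hk1 hL
  have hexpk := exp_le_pow_self k (by omega)
  have hprod : 15 * ((b : ℝ) ^ L * (1 + (k : ℝ) * s) ^ (8 * k * a₁) * Real.exp k) ≤ R := by
    calc 15 * ((b : ℝ) ^ L * (1 + (k : ℝ) * s) ^ (8 * k * a₁) * Real.exp k)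
        ≤ (k : ℝ) * ((k : ℝ) ^ (2 * k) * (k : ℝ) ^ ((3 * T + 2) * (8 * k * a₁)) * (k : ℝ) ^ k) := by
          have h15 : (15 : ℝ) ≤ k := by linarith
          have hb0 : (0 : ℝ) ≤ (b : ℝ) ^ L := by positivity
          gcongr
      _ = (k : ℝ) ^ (1 + (2 * k + (3 * T + 2) * (8 * k * a₁) + k)) := by
          rw [pow_add, pow_add, pow_add, pow_one]
      _ ≤ (k : ℝ) ^ ((4 + (3 * T + 2) * 8 * a₁) * k) := by
          apply pow_le_pow_right₀ hk1
          have h3 : (3 * T + 2) * (8 * k * a₁) = (3 * T + 2) * 8 * a₁ * k := by ring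
          have h4 : (4 + (3 * T + 2) * 8 * a₁) * k = 4 * k + (3 * T + 2) * 8 * a₁ * k := by ring
          rw [h3, h4]
          omega
      _ ≤ R := hR
  have hR0 : 0 ≤ R := le_trans (by positivity) hR
  have hexp : Real.exp (-(k : ℝ)) * Real.exp k = 1 := by
    rw [← Real.exp_add]; simp
  have hepos := Real.exp_pos (-(k : ℝ))
  set Rs := (1 + (k : ℝ) * s) ^ (8 * k * a₁) with hRsdef
  set bL := (b : ℝ) ^ L with hbL
  have hbL0 : 0 ≤ bL := by positivity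
  have hRs0 : 0 ≤ Rs := by positivity
  have h1 : bL * R' * Rs ≤ bL * (5 * R) * Rs := by
    apply mul_le_mul_of_nonneg_right _ hRs0
    exact mul_le_mul_of_nonneg_left hR' hbL0
  have h2 : bL * (5 * R) * Rs = R * (bL * Rs) * 5 := by ring
  have h3 : bL * Rs * Real.exp k * 15 ≤ R := by linarith
  have h4 : bL * Rs * 15 ≤ R * Real.exp (-(k : ℝ)) := by
    have h5 := mul_le_mul_of_nonneg_right h3 hepos.le
    have h6 : bL * Rs * Real.exp k * 15 * Real.exp (-(k : ℝ))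
        = bL * Rs * 15 * (Real.exp (-(k : ℝ)) * Real.exp k) := by ring
    rw [h6, hexp, mul_one] at h5
    exact h5
  have h7 := mul_le_mul_of_nonneg_left h4 hR0
  nlinarith

lemma numeric_clusters_3 (Δ k L T a₁ M : ℕ) (hΔ : 2 * Δ ≤ k) (hL : L ≤ 2 * k) (hk : 16 ≤ k)
    (ha₁ : 1 ≤ a₁) (hM : M ≤ k ^ (3 * T)) (R : ℝ)
    (hR : (k : ℝ) ^ ((4 + (3 * T + 2) * 8 * a₁) * k) ≤ R) :
    (2 * ((M : ℝ) + L * Δ) + 1) ^ 2 ≤ R ^ 2 * Real.exp (-(k : ℝ)) / 3 := by
  have hkR : (16 : ℝ) ≤ k := by exact_mod_cast hk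
  have hk0 : (0 : ℝ) < k := by linarith
  have hk1 : (1 : ℝ) ≤ k := by linarith
  have hMZ : (M : ℝ) ≤ (k : ℝ) ^ (3 * T) := by exact_mod_cast hM
  have hZ1 : (1 : ℝ) ≤ (k : ℝ) ^ (3 * T) := one_le_pow₀ hk1
  have hLΔ : (L : ℝ) * Δ ≤ (k : ℝ) ^ 2 := by
    have h1 : (L : ℝ) ≤ 2 * k := by exact_mod_cast hL
    have h2 : 2 * (Δ : ℝ) ≤ k := by exact_mod_cast hΔ
    have h3 : (0 : ℝ) ≤ Δ := Nat.cast_nonneg Δ
    nlinarith
  set Z := (k : ℝ) ^ (3 * T) with hZ
  have hk2 : (k : ℝ) ^ 2 ≤ (k : ℝ) ^ 2 * Z := le_mul_of_one_le_right (by positivity) hZ1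
  have hZ2 : Z ≤ (k : ℝ) ^ 2 * Z := le_mul_of_one_le_left (by linarith) (one_le_pow₀ hk1)
  have h1 : 2 * ((M : ℝ) + L * Δ) + 1 ≤ (k : ℝ) ^ 3 * Z := by
    have h2 : (k : ℝ) ^ 3 * Z = k * ((k : ℝ) ^ 2 * Z) := by ring
    rw [h2]
    have h3 : 16 * ((k : ℝ) ^ 2 * Z) ≤ k * ((k : ℝ) ^ 2 * Z) :=
      mul_le_mul_of_nonneg_right hkR (by positivity)
    have h4 : 1 ≤ (k : ℝ) ^ 2 * Z := by linarith
    linarith
  have h2 : (2 * ((M : ℝ) + L * Δ) + 1) ^ 2 ≤ ((k : ℝ) ^ 3 * Z) ^ 2 :=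
    pow_le_pow_left₀ (by positivity) h1 2
  have hexpk := exp_le_pow_self k (by omega)
  have h3 : ((k : ℝ) ^ 3 * Z) ^ 2 * (3 * Real.exp k) ≤ R ^ 2 := by
    have h4 : ((k : ℝ) ^ 3 * Z) ^ 2 * (3 * Real.exp k)
        ≤ ((k : ℝ) ^ 3 * Z) ^ 2 * ((k : ℝ) * (k : ℝ) ^ k) := by
      apply mul_le_mul_of_nonneg_left _ (by positivity)
      have h5 : (3 : ℝ) ≤ k := by linarith
      exact mul_le_mul h5 hexpk (Real.exp_pos _).le hk0.le
    have h6 : ((k : ℝ) ^ 3 * Z) ^ 2 * ((k : ℝ) * (k : ℝ) ^ k)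
        = (k : ℝ) ^ (7 + 6 * T + k) := by
      rw [hZ]; ring
    have h7 : (k : ℝ) ^ (7 + 6 * T + k) ≤ (k : ℝ) ^ ((4 + (3 * T + 2) * 8 * a₁) * k * 2) := by
      apply pow_le_pow_right₀ hk1
      have h8 : 1 * ((3 * T + 2) * 8) ≤ a₁ * ((3 * T + 2) * 8) := Nat.mul_le_mul_right _ ha₁
      have h9 : (3 * T + 2) * 8 * a₁ = a₁ * ((3 * T + 2) * 8) := by ring
      have h10 : (4 + (3 * T + 2) * 8 * a₁) * 1 ≤ (4 + (3 * T + 2) * 8 * a₁) * k :=
        Nat.mul_le_mul_left _ (by omega)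
      have h11 : 4 * k ≤ (4 + (3 * T + 2) * 8 * a₁) * k := Nat.mul_le_mul_right _ (by omega)
      omega
    have h12 : (k : ℝ) ^ ((4 + (3 * T + 2) * 8 * a₁) * k * 2)
        = ((k : ℝ) ^ ((4 + (3 * T + 2) * 8 * a₁) * k)) ^ 2 := pow_mul _ _ _
    have h13 : ((k : ℝ) ^ ((4 + (3 * T + 2) * 8 * a₁) * k)) ^ 2 ≤ R ^ 2 :=
      pow_le_pow_left₀ (by positivity) hR 2
    linarith
  have hexp : Real.exp (-(k : ℝ)) * Real.exp k = 1 := by
    rw [← Real.exp_add]; simp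
  have hepos := Real.exp_pos (-(k : ℝ))
  have h5 := mul_le_mul_of_nonneg_right h3 hepos.le
  have h6 : ((k : ℝ) ^ 3 * Z) ^ 2 * (3 * Real.exp k) * Real.exp (-(k : ℝ))
      = ((k : ℝ) ^ 3 * Z) ^ 2 * 3 * (Real.exp (-(k : ℝ)) * Real.exp k) := by ring
  rw [h6, hexp, mul_one] at h5
  linarith

/-- The numerical inequality for the cluster count. -/
lemma numeric_clusters (Δ T a₁ : ℕ) (hΔ : 1 ≤ Δ) (ha₁ : 1 ≤ a₁) :
    ∃ k₀ : ℕ, 16 ≤ k₀ ∧ ∀ k, k₀ ≤ k → ∀ (M s L R₀ : ℕ) (R : ℝ), M ≤ k ^ (3 * T) → s ≤ M → L ≤ 2 * k →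
      (k : ℝ) ^ ((4 + (3 * T + 2) * 8 * a₁) * k) ≤ R → (R₀ : ℝ) ≤ R + 1 →
      (2 * ((M : ℝ) + L * Δ) + 1) ^ 2 + (((2 * Δ + 1) ^ 2 : ℕ) : ℝ) ^ L * (2 * (R₀ : ℝ) + 1) *
      ((2 * (R₀ : ℝ) + 1) *
        (2 * Real.exp (-((k : ℝ) * (2 * Real.log (((2 * Δ + 1) ^ 2 : ℕ) : ℝ) + 2))))
        + (1 + (k : ℝ) * s) ^ (8 * k * a₁)) ≤ R ^ 2 * Real.exp (-(k : ℝ)) := by
  refine ⟨(2 * Δ + 1) ^ 2 + 2 * Δ + 16, by omega, fun k hk M s L R₀ R hM hs hL hR hR₀ => ?_⟩
  have hk16 : 16 ≤ k := by omega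
  have hk1 : (1 : ℝ) ≤ k := by
    have : 1 ≤ k := by omega
    exact_mod_cast this
  have hR1 : 1 ≤ R := le_trans (one_le_pow₀ hk1) hR
  have hR' : 2 * (R₀ : ℝ) + 1 ≤ 5 * R := by linarith
  have hR'0 : (0 : ℝ) ≤ 2 * (R₀ : ℝ) + 1 := by positivity
  have h1 := numeric_clusters_1 ((2 * Δ + 1) ^ 2) (by positivity) k L hL hk16 R (by linarith) _ hR' hR'0
  have h2 := numeric_clusters_2 ((2 * Δ + 1) ^ 2) k L T a₁ s hL (by positivity) (by omega) hk16
    (hs.trans hM) R hR _ hR' hR'0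
  have h3 := numeric_clusters_3 Δ k L T a₁ M (by omega) hL hk16 ha₁ hM R hR
  have h4 : ∀ x y z w : ℝ, x * y * (y * z + w) = x * y * (y * z) + x * y * w := by
    intros; ring
  rw [h4]
  linarith

/-- **Decay of clusters.** -/
theorem cluster_count (D : ℝ) (_hD : 0 < D) : ∃ C k₀ : ℕ, ∀ k, k₀ ≤ k → ∀ R : ℝ,
    (k : ℝ) ^ (C * k) ≤ R → ∀ F : Finset GaussianInt,
    (∀ z ∈ F, Irreducible z ∧ gdist z 0 ≤ R ∧
      ∃ T : Finset GaussianInt, T.card = k ∧ ∀ w ∈ T, (primeGraph D).Reachable z w) →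
    (F.card : ℝ) ≤ R ^ 2 * Real.exp (-(k : ℝ)) := by
  classical
  set Δ : ℕ := ⌈D⌉₊ + 1 with hΔ
  have hΔ1 : 1 ≤ Δ := by omega
  have hDΔ : D ≤ Δ := by
    rw [hΔ]; push_cast
    linarith [Nat.le_ceil D]
  obtain ⟨A, hAdef⟩ : ∃ A : ℝ, A = 2 * Real.log (((2 * Δ + 1) ^ 2 : ℕ) : ℝ) + 2 := ⟨_, rfl⟩
  have hA : 0 ≤ A := by
    rw [hAdef]
    have := Real.log_natCast_nonneg ((2 * Δ + 1) ^ 2)
    linarith
  set a₁ : ℕ := ⌈A⌉₊ + 1 with ha₁
  have ha₁1 : 1 ≤ a₁ := by omega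
  have ha₁A : A + 1 ≤ a₁ := by
    rw [ha₁]; push_cast
    linarith [Nat.le_ceil A]
  obtain ⟨T, P₀, hT, hP⟩ := exists_primes A hA
  obtain ⟨k₁, hk₁, hnum⟩ := numeric_clusters Δ T a₁ hΔ1 ha₁1
  refine ⟨4 + (3 * T + 2) * 8 * a₁, k₁ + P₀ + 8 * Δ ^ 2 + 2, fun k hk R hR F hF => ?_⟩
  have hk16 : 16 ≤ k := by omega
  have hkR1 : (1 : ℝ) ≤ k := by
    have : 1 ≤ k := by omega
    exact_mod_cast this
  have hR1 : 1 ≤ R := le_trans (one_le_pow₀ hkR1) hR
  set L : ℕ := 2 * (k - 1) with hL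
  have hLk : L ≤ 2 * k := by omega
  set P : ℕ := 2 * (L * Δ) ^ 2 + 1 with hPdef
  have hPP₀ : P₀ ≤ P := by
    have hL1 : k ≤ L := by omega
    have h1 : k ≤ L * Δ := hL1.trans (Nat.le_mul_of_pos_right L (by omega))
    have h2 : L * Δ ≤ (L * Δ) ^ 2 := Nat.le_self_pow (by norm_num) _
    omega
  have hPk : P ≤ k ^ 3 := by
    have h1 : 8 * Δ ^ 2 + 1 ≤ k := by omega
    have h2 : 1 ≤ k ^ 2 := Nat.one_le_pow _ _ (by omega)
    have h3 : (L * Δ) ^ 2 ≤ (2 * k * Δ) ^ 2 :=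
      Nat.pow_le_pow_left (Nat.mul_le_mul_right Δ hLk) 2
    calc P ≤ 2 * (2 * k * Δ) ^ 2 + 1 := by omega
      _ = 8 * Δ ^ 2 * k ^ 2 + 1 := by ring
      _ ≤ 8 * Δ ^ 2 * k ^ 2 + k ^ 2 := by omega
      _ = (8 * Δ ^ 2 + 1) * k ^ 2 := by ring
      _ ≤ k * k ^ 2 := Nat.mul_le_mul_right _ h1
      _ = k ^ 3 := by ring
  obtain ⟨S, hS, hlo, hhi⟩ := hP P hPP₀
  set M : ℕ := P ^ T with hMdef
  have hM : M ≤ k ^ (3 * T) := by
    rw [pow_mul]
    exact Nat.pow_le_pow_left hPk T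
  have hScard : S.card ≤ M := by
    have h1 : S ⊆ Finset.Ioc 0 M := by
      intro p hp
      rw [Finset.mem_Ioc]
      exact ⟨(hS p hp).1.pos, (hS p hp).2.2.2⟩
    simpa using Finset.card_le_card h1
  -- the walks
  have hwalk : ∀ z, z ∈ F → ∃ f : ℕ → GaussianInt, f 0 = z ∧
      (∀ i < L, (primeGraph D).Adj (f i) (f (i + 1))) ∧
      (∀ i ≤ L, (primeGraph D).Reachable z (f i)) ∧ ((range (L + 1)).image f).card = k := by
    intro z hz
    obtain ⟨_, _, T', hT', hT'r⟩ := hF z hz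
    obtain ⟨f, h1, h2, h3, h4⟩ := walk_growth (primeGraph D) z T' hT'r (k - 1) (by omega)
    refine ⟨f, h1, h2, h3, ?_⟩
    rw [h4]
    omega
  choose! f hf0 hfadj hfr hfcard using hwalk
  have hstepX : ∀ z ∈ F, ∀ i < L, |(f z (i + 1)).re - (f z i).re| ≤ Δ := by
    intro z hz i hi
    have h1 := (hfadj z hz i hi).2.2.2
    have h2 := (abs_re_le (f z i) (f z (i + 1))).trans (h1.trans hDΔ)
    rw [abs_sub_comm] at h2
    have h3 : |(((f z (i + 1)).re - (f z i).re : ℤ) : ℝ)| ≤ ((Δ : ℤ) : ℝ) := by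
      push_cast; exact h2
    exact_mod_cast h3
  have hstepY : ∀ z ∈ F, ∀ i < L, |(f z (i + 1)).im - (f z i).im| ≤ Δ := by
    intro z hz i hi
    have h1 := (hfadj z hz i hi).2.2.2
    have h2 := (abs_im_le (f z i) (f z (i + 1))).trans (h1.trans hDΔ)
    rw [abs_sub_comm] at h2
    have h3 : |(((f z (i + 1)).im - (f z i).im : ℤ) : ℝ)| ≤ ((Δ : ℤ) : ℝ) := by
      push_cast; exact h2
    exact_mod_cast h3
  -- bad and good
  set B₀ : ℤ := (M : ℤ) + L * Δ with hB₀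
  have hB₀0 : 0 ≤ B₀ := by positivity
  let Bad := F.filter (fun z => |z.re| ≤ B₀ ∧ |z.im| ≤ B₀)
  let Good := F.filter (fun z => ¬ (|z.re| ≤ B₀ ∧ |z.im| ≤ B₀))
  have hsplit : F.card = Good.card + Bad.card := by
    have := Finset.card_filter_add_card_filter_not (s := F)
      (fun z : GaussianInt => |z.re| ≤ B₀ ∧ |z.im| ≤ B₀)
    rw [add_comm]
    exact this.symm
  have hBad : (Bad.card : ℝ) ≤ (2 * ((M : ℝ) + L * Δ) + 1) ^ 2 := by
    let Bx : Finset (ℤ × ℤ) := Icc (-B₀) B₀ ×ˢ Icc (-B₀) B₀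
    have h1 : Bad.card ≤ Bx.card := by
      refine Finset.card_le_card_of_injOn (fun z => (z.re, z.im)) ?_ ?_
      · intro z hz
        have hz' := (Finset.mem_filter.mp hz).2
        simp only [Bx, Finset.coe_product, Set.mem_prod, Finset.mem_coe, Finset.mem_Icc]
        exact ⟨abs_le.mp hz'.1, abs_le.mp hz'.2⟩
      · intro z _ z' _ h
        exact Zsqrtd.ext (congrArg Prod.fst h) (congrArg Prod.snd h)
    have h2 : Bx.card = (2 * B₀ + 1).toNat ^ 2 := by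
      simp only [Bx, Finset.card_product, Int.card_Icc]
      have : (B₀ + 1 - -B₀).toNat = (2 * B₀ + 1).toNat := by
        congr 1; ring
      rw [this]; ring
    rw [h2] at h1
    have h3 : (((2 * B₀ + 1).toNat : ℤ) : ℝ) = 2 * ((M : ℝ) + L * Δ) + 1 := by
      rw [Int.toNat_of_nonneg (by omega), hB₀]
      push_cast
      ring
    have h4 : (Bad.card : ℝ) ≤ (((2 * B₀ + 1).toNat : ℝ)) ^ 2 := by exact_mod_cast h1
    have h5 : (((2 * B₀ + 1).toNat : ℤ) : ℝ) = ((2 * B₀ + 1).toNat : ℝ) := by push_cast; rfl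
    rw [← h5, h3] at h4
    exact h4
  set R₀ : ℕ := ⌈R⌉₊ with hR₀
  have hR₀le : (R₀ : ℝ) ≤ R + 1 := (Nat.ceil_lt_add_one (by linarith)).le
  have hsubG : ∀ z ∈ Good, z ∈ F := fun z hz => (Finset.mem_filter.mp hz).1
  have hRbd : ∀ z ∈ Good, |z.re| ≤ R₀ ∧ |z.im| ≤ R₀ := by
    intro z hz
    have h1 := (hF z (hsubG z hz)).2.1
    have hRR : R ≤ (R₀ : ℝ) := Nat.le_ceil R
    have h2 := abs_re_le z 0
    have h3 := abs_im_le z 0
    simp only [Zsqrtd.re_zero, Zsqrtd.im_zero, Int.cast_zero, sub_zero] at h2 h3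
    constructor
    · have : ((|z.re| : ℤ) : ℝ) ≤ ((R₀ : ℤ) : ℝ) := by
        push_cast; linarith
      exact_mod_cast this
    · have : ((|z.im| : ℤ) : ℝ) ≤ ((R₀ : ℤ) : ℝ) := by
        push_cast; linarith
      exact_mod_cast this
  -- vertices of walks from good points are primes of large norm
  have hprime : ∀ z ∈ Good, ∀ i ≤ L, ∀ p ∈ S, ¬ (p : ℤ) ∣ (f z i).re ^ 2 + (f z i).im ^ 2 := by
    intro z hz i hi p hp hdvd
    have hzF := hsubG z hz
    have hirr : Irreducible (f z i) :=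
      irreducible_of_reachable D z _ (hF z hzF).1 (hfr z hzF i hi)
    have h1 := norm_eq_of_dvd (f z i) hirr p (hS p hp).1 (hS p hp).2.1 hdvd
    have h2 : (p : ℤ) ≤ M := by exact_mod_cast (hS p hp).2.2.2
    have hnotbad := (Finset.mem_filter.mp hz).2
    have hlipX : |(f z i).re - z.re| ≤ L * Δ := by
      have hZ' : ∀ j, j + 1 < L + 1 → |(f z (j + 1)).re - (f z j).re| ≤ Δ :=
        fun j hj => hstepX z hzF j (by omega)
      have h3 := path_lip (fun j => (f z j).re) (L + 1) Δ hZ' 0 i (by omega)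
      simp only [zero_add, hf0 z hzF] at h3
      refine h3.trans ?_
      apply mul_le_mul_of_nonneg_right _ (by positivity)
      exact_mod_cast hi
    have hlipY : |(f z i).im - z.im| ≤ L * Δ := by
      have hZ' : ∀ j, j + 1 < L + 1 → |(f z (j + 1)).im - (f z j).im| ≤ Δ :=
        fun j hj => hstepY z hzF j (by omega)
      have h3 := path_lip (fun j => (f z j).im) (L + 1) Δ hZ' 0 i (by omega)
      simp only [zero_add, hf0 z hzF] at h3
      refine h3.trans ?_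
      apply mul_le_mul_of_nonneg_right _ (by positivity)
      exact_mod_cast hi
    have hlarge : ∀ u v w : ℤ, |u - v| ≤ L * Δ → B₀ < |v| → (M : ℤ) < u ^ 2 + w ^ 2 := by
      intro u v w huv hv
      have h3 : (M : ℤ) < |u| := by
        have h4 : |v| ≤ |u| + |u - v| := by
          have := abs_sub_abs_le_abs_sub v u
          rw [abs_sub_comm v u] at this
          linarith
        rw [hB₀] at hv
        linarith
      have h5 : (0 : ℤ) ≤ M := by positivity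
      have h6 : |u| ≤ |u| ^ 2 := by nlinarith [abs_nonneg u]
      rw [sq_abs] at h6
      have h7 := sq_nonneg w
      linarith
    rw [not_and_or] at hnotbad
    rcases hnotbad with h3 | h3
    · push Not at h3
      have := hlarge _ _ (f z i).im hlipX h3
      omega
    · push Not at h3
      have := hlarge _ _ (f z i).re hlipY h3
      rw [add_comm] at this
      omega
  have hGood := good_clusters k Δ L R₀ S (fun p hp => ⟨(hS p hp).1, (hS p hp).2.1⟩)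
    (fun p hp => by
      have h1 := (hS p hp).2.2.1
      omega)
    (fun p hp => by
      have h1 := (hS p hp).2.2.1
      have hL1 : k ≤ L := by omega
      have h2 : k ≤ L * Δ := hL1.trans (Nat.le_mul_of_pos_right L (by omega))
      have h3 : L * Δ ≤ (L * Δ) ^ 2 := Nat.le_self_pow (by norm_num) _
      omega)
    A hA a₁ hlo (hhi.trans ha₁A) Good f (fun z hz => hf0 z (hsubG z hz))
    (fun z hz => hstepX z (hsubG z hz)) (fun z hz => hstepY z (hsubG z hz))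
    (fun z hz => hfcard z (hsubG z hz)) hprime hRbd
  have hnum' := hnum k (by omega) M S.card L R₀ R hM hScard hLk hR hR₀le
  rw [← hAdef] at hnum'
  have hF2 : (F.card : ℝ) = (Good.card : ℝ) + (Bad.card : ℝ) := by
    rw [hsplit]; push_cast; rfl
  rw [hF2]
  linarith

/-- The main statement on components. -/
theorem cluster_main (D : ℝ) (hD : 0 < D) :
    (∃ C k₀ : ℕ, ∀ k, k₀ ≤ k → ∀ R : ℝ, (k : ℝ) ^ (C * k) ≤ R → ∀ F : Finset GaussianInt,
      (∀ z ∈ F, Irreducible z ∧ gdist z 0 ≤ R ∧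
        ∃ T : Finset GaussianInt, T.card = k ∧ ∀ w ∈ T, (primeGraph D).Reachable z w) →
      (F.card : ℝ) ≤ R ^ 2 * Real.exp (-(k : ℝ))) ∧
    (∃ c : ℝ, 0 < c ∧ ∃ R₀ : ℝ, ∀ R, R₀ ≤ R → ∀ F : Finset GaussianInt,
      (∀ z ∈ F, Irreducible z ∧ gdist z 0 ≤ R ∧ {w | (primeGraph D).Reachable z w}.Infinite) →
      (F.card : ℝ) ≤ R ^ 2 * Real.exp (-(c * psi R))) := by
  obtain ⟨C, k₀, hmain⟩ := cluster_count D hD
  refine ⟨⟨C, k₀, hmain⟩, ?_⟩
  set c' : ℝ := 1 / (2 * ((C : ℝ) + 1)) with hc'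
  have hC0 : (0 : ℝ) ≤ C := Nat.cast_nonneg C
  have hc'0 : 0 < c' := by positivity
  refine ⟨c', hc'0, ?_⟩
  set B : ℝ := 2 * (1 + (k₀ : ℝ)) / c' with hB
  have hB0 : 0 ≤ B := by positivity
  refine ⟨Real.exp (B ^ 2 + 3), fun R hR F hF => ?_⟩
  have hRpos : 0 < R := lt_of_lt_of_le (Real.exp_pos _) hR
  set x := Real.log R with hx
  have hxB : B ^ 2 + 3 ≤ x := by
    have := Real.log_le_log (Real.exp_pos _) hR
    rwa [Real.log_exp] at this
  have hx3 : 3 ≤ x := by nlinarith [sq_nonneg B]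
  have hx0 : 0 < x := by linarith
  set y := Real.log x with hy
  have hy1 : 1 ≤ y := by
    have h1 : Real.log (Real.exp 1) ≤ Real.log x := by
      apply Real.log_le_log (Real.exp_pos _)
      have := Real.exp_one_lt_d9
      linarith
    rwa [Real.log_exp] at h1
  have hy0 : 0 < y := by linarith
  have hxy : B ≤ 2 * (x / y) := by
    have h1 : y ≤ 2 * Real.sqrt x := by
      have h2 : Real.log (Real.sqrt x) ≤ Real.sqrt x - 1 :=
        Real.log_le_sub_one_of_pos (Real.sqrt_pos.mpr hx0)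
      rw [Real.log_sqrt hx0.le] at h2
      linarith
    have h3 : Real.sqrt x * Real.sqrt x = x := Real.mul_self_sqrt hx0.le
    have h4 : B ≤ Real.sqrt x := by
      apply Real.le_sqrt_of_sq_le
      linarith
    have hsq : 0 < Real.sqrt x := Real.sqrt_pos.mpr hx0
    have h5 : Real.sqrt x / 2 ≤ x / y := by
      rw [le_div_iff₀ hy0]
      nlinarith
    linarith
  set u := c' * (x / y) with hu
  have hu2 : 1 + (k₀ : ℝ) ≤ u := by
    have h1 : 2 * (1 + (k₀ : ℝ)) / c' ≤ 2 * (x / y) := hxy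
    rw [div_le_iff₀ hc'0] at h1
    rw [hu]
    nlinarith
  have hu1 : 1 ≤ u := by
    have : (0 : ℝ) ≤ k₀ := Nat.cast_nonneg k₀
    linarith
  set k : ℕ := ⌈u⌉₊ with hk
  have hku1 : u ≤ k := Nat.le_ceil u
  have hku : (k : ℝ) ≤ 2 * u := by
    have h1 : (⌈u⌉₊ : ℝ) < u + 1 := Nat.ceil_lt_add_one (by linarith)
    rw [hk]
    linarith
  have hk1 : (1 : ℝ) ≤ k := by linarith
  have hk0 : (0 : ℝ) < k := by linarith
  have hkk₀ : k₀ ≤ k := by
    have : (k₀ : ℝ) ≤ k := by linarith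
    exact_mod_cast this
  have hlogk : Real.log k ≤ y := by
    rw [hy]
    apply Real.log_le_log hk0
    have h1 : c' ≤ 1 / 2 := by
      rw [hc']
      apply one_div_le_one_div_of_le (by norm_num)
      linarith
    have h2 : 0 < x / y := by positivity
    have h3 : x / y ≤ x := div_le_self hx0.le hy1
    calc (k : ℝ) ≤ 2 * u := hku
      _ = 2 * c' * (x / y) := by rw [hu]; ring
      _ ≤ 2 * (1 / 2) * (x / y) := by
          apply mul_le_mul_of_nonneg_right _ h2.le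
          linarith
      _ = x / y := by ring
      _ ≤ x := h3
  have hlogk0 : 0 ≤ Real.log k := Real.log_nonneg hk1
  have hfinal : ((C * k : ℕ) : ℝ) * Real.log k ≤ x := by
    push_cast
    have h1 : (C : ℝ) * k * Real.log k ≤ C * (2 * u) * y := by
      apply mul_le_mul _ hlogk hlogk0 (by positivity)
      exact mul_le_mul_of_nonneg_left hku hC0
    have h2 : (C : ℝ) * (2 * u) * y = C * (2 * c') * x := by
      rw [hu]
      field_simp
    have h3 : (C : ℝ) * (2 * c') ≤ 1 := by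
      rw [hc']
      field_simp
      linarith
    nlinarith
  have h6 : (k : ℝ) ^ (C * k) = Real.exp (((C * k : ℕ) : ℝ) * Real.log k) := by
    rw [Real.exp_nat_mul, Real.exp_log hk0]
  have hkR : (k : ℝ) ^ (C * k) ≤ R := by
    rw [h6]
    calc Real.exp (((C * k : ℕ) : ℝ) * Real.log k) ≤ Real.exp x := Real.exp_le_exp.mpr hfinal
      _ = R := by rw [hx, Real.exp_log hRpos]
  have hres := hmain k hkk₀ R hkR F (fun z hz => by
    obtain ⟨h1, h2, h3⟩ := hF z hz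
    refine ⟨h1, h2, ?_⟩
    obtain ⟨T, hT1, hT2⟩ := h3.exists_subset_card_eq k
    exact ⟨T, hT2, fun w hw => hT1 hw⟩)
  refine hres.trans ?_
  apply mul_le_mul_of_nonneg_left _ (by positivity)
  apply Real.exp_le_exp.mpr
  have h7 : c' * psi R = u := by
    unfold psi
    rw [hu]
  linarith

end Vale.Agent.Lib.P015
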