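import Mathlib

/-!
Definitions for the statement on paths of Gaussian primes.
-/

namespace Vale.Agent.Lib.P015

/-- The Euclidean distance between two Gaussian integers. -/
noncomputable def gdist (z w : GaussianInt) : ℝ :=
  Real.sqrt (((z.re : ℝ) - (w.re : ℝ)) ^ 2 + ((z.im : ℝ) - (w.im : ℝ)) ^ 2)

/-- `γ 0, ..., γ (n-1)` is a path with pairwise distinct vertices in the graph `G_D`:
its vertices are Gaussian primes (irreducible elements of `ℤ[i]`) and successive vertices are at
Euclidean distance at most `D`. -/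
def IsPrimePath (D : ℝ) (n : ℕ) (γ : ℕ → GaussianInt) : Prop :=
  (∀ i < n, Irreducible (γ i)) ∧
  (∀ i < n, ∀ j < n, γ i = γ j → i = j) ∧
  (∀ i, i + 1 < n → gdist (γ i) (γ (i + 1)) ≤ D)

/-- The function `log r / log log r`. -/
noncomputable def psi (r : ℝ) : ℝ := Real.log r / Real.log (Real.log r)

end Vale.Agent.Lib.P015
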