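import Mathlib

/-!
A weak form of Mertens theorem for primes congruent to 1 modulo 4: the sum of `1 / p` over such
primes in `(P, P ^ T]` is as large as we like, when `T` is large and `P` is large.
-/

namespace Vale.Agent.Lib.P015

open Finset Real

/-- weight `log p / p ^ (1 + ε)` on all primes -/
noncomputable def wAll (ε : ℝ) (p : ℕ) : ℝ :=
  if p.Prime then Real.log p / (p : ℝ) ^ (1 + ε) else 0

/-- weight `log p / p ^ (1 + ε)` on primes congruent to 1 modulo 4 -/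
noncomputable def wOne (ε : ℝ) (p : ℕ) : ℝ :=
  if p.Prime ∧ p % 4 = 1 then Real.log p / (p : ℝ) ^ (1 + ε) else 0

lemma wAll_nonneg (ε : ℝ) (p : ℕ) : 0 ≤ wAll ε p := by
  unfold wAll
  split_ifs with h
  · exact div_nonneg (Real.log_natCast_nonneg p) (Real.rpow_nonneg (Nat.cast_nonneg p) _)
  · exact le_rfl

lemma wOne_nonneg (ε : ℝ) (p : ℕ) : 0 ≤ wOne ε p := by
  unfold wOne
  split_ifs with h
  · exact div_nonneg (Real.log_natCast_nonneg p) (Real.rpow_nonneg (Nat.cast_nonneg p) _)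
  · exact le_rfl

lemma wOne_le_wAll (ε : ℝ) (p : ℕ) : wOne ε p ≤ wAll ε p := by
  unfold wOne wAll
  by_cases h : p.Prime
  · by_cases h2 : p % 4 = 1
    · simp [h, h2]
    · simp only [h, h2, and_false, if_false, if_true]
      exact div_nonneg (Real.log_natCast_nonneg p) (Real.rpow_nonneg (Nat.cast_nonneg p) _)
  · simp [h]

lemma wOne_mono (ε : ℝ) (hε : 0 ≤ ε) (p : ℕ) : wOne ε p ≤ wOne 0 p := by
  unfold wOne
  by_cases h : p.Prime ∧ p % 4 = 1
  · simp only [h, and_self, if_true]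
    have hp : (1 : ℝ) ≤ p := by exact_mod_cast h.1.one_lt.le
    apply div_le_div_of_nonneg_left (Real.log_natCast_nonneg p)
      (Real.rpow_pos_of_pos (by linarith) _)
    exact Real.rpow_le_rpow_of_exponent_le hp (by linarith)
  · simp [h]

/-- Chebyshev bound on a dyadic block. -/
lemma cheb_block (j : ℕ) :
    ∑ p ∈ Ioc (2 ^ j : ℕ) (2 ^ (j + 1)), (if p.Prime then Real.log (p : ℝ) else 0)
      ≤ Real.log 4 * 2 ^ (j + 1) := by
  have h1 := Chebyshev.theta_le_log4_mul_x (x := (2 : ℝ) ^ (j + 1)) (by positivity)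
  have h2 : ⌊(2 : ℝ) ^ (j + 1)⌋₊ = 2 ^ (j + 1) := by
    have : (2 : ℝ) ^ (j + 1) = ((2 ^ (j + 1) : ℕ) : ℝ) := by push_cast; rfl
    rw [this, Nat.floor_natCast]
  unfold Chebyshev.theta at h1
  rw [h2, Finset.sum_filter] at h1
  refine le_trans ?_ h1
  apply Finset.sum_le_sum_of_subset_of_nonneg
  · intro p hp
    rw [Finset.mem_Ioc] at hp ⊢
    exact ⟨by have := Nat.pos_of_ne_zero (pow_ne_zero j (two_ne_zero (α := ℕ))); omega, hp.2⟩
  · intro p _ _
    split_ifs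
    · exact Real.log_natCast_nonneg p
    · exact le_rfl

/-- Weighted bound on a dyadic block. -/
lemma block_bound (ε : ℝ) (hε : 0 ≤ ε) (j : ℕ) :
    ∑ p ∈ Ioc (2 ^ j : ℕ) (2 ^ (j + 1)), wAll ε p
      ≤ 2 * Real.log 4 * (((2 : ℝ) ^ (-ε)) ^ j) := by
  set ρ : ℝ := (2 : ℝ) ^ (-ε) with hρ
  have hρpos : 0 < ρ := Real.rpow_pos_of_pos (by norm_num) _
  have h2j : (0 : ℝ) < 2 ^ j := by positivity
  have hterm : ∀ p ∈ Ioc (2 ^ j : ℕ) (2 ^ (j + 1)), wAll ε p
      ≤ (if p.Prime then Real.log (p : ℝ) else 0) * (ρ ^ j / 2 ^ j) := by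
    intro p hp
    unfold wAll
    split_ifs with hpr
    · rw [Finset.mem_Ioc] at hp
      have hp1 : ((2 : ℝ) ^ j) ≤ p := by exact_mod_cast hp.1.le
      have hpos : (0 : ℝ) < p := by linarith
      rw [div_eq_mul_inv]
      apply mul_le_mul_of_nonneg_left _ (Real.log_natCast_nonneg p)
      have h3 : (p : ℝ) ^ (1 + ε) = p * (p : ℝ) ^ ε := by
        rw [Real.rpow_add hpos, Real.rpow_one]
      have h4 : ((2 : ℝ) ^ j) ^ ε ≤ (p : ℝ) ^ ε :=
        Real.rpow_le_rpow (by positivity) hp1 hε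
      have h5 : ρ ^ j * ((2 : ℝ) ^ j) ^ ε = 1 := by
        rw [hρ, ← Real.rpow_natCast, ← Real.rpow_natCast, ← Real.rpow_mul (by norm_num),
          ← Real.rpow_mul (by norm_num), ← Real.rpow_add (by norm_num)]
        have : -ε * (j : ℝ) + (j : ℝ) * ε = 0 := by ring
        rw [this, Real.rpow_zero]
      have h6 : 0 < ((2 : ℝ) ^ j) ^ ε := Real.rpow_pos_of_pos h2j _
      have h7 : ρ ^ j / 2 ^ j = ((2 : ℝ) ^ j * ((2 : ℝ) ^ j) ^ ε)⁻¹ := by
        field_simp
        linarith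
      rw [h3, h7]
      apply inv_anti₀ (by positivity)
      exact mul_le_mul hp1 h4 h6.le hpos.le
    · simp
  calc ∑ p ∈ Ioc (2 ^ j : ℕ) (2 ^ (j + 1)), wAll ε p
      ≤ ∑ p ∈ Ioc (2 ^ j : ℕ) (2 ^ (j + 1)),
          (if p.Prime then Real.log (p : ℝ) else 0) * (ρ ^ j / 2 ^ j) :=
        Finset.sum_le_sum hterm
    _ = (∑ p ∈ Ioc (2 ^ j : ℕ) (2 ^ (j + 1)), (if p.Prime then Real.log (p : ℝ) else 0))
          * (ρ ^ j / 2 ^ j) := by rw [Finset.sum_mul]
    _ ≤ (Real.log 4 * 2 ^ (j + 1)) * (ρ ^ j / 2 ^ j) :=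
        mul_le_mul_of_nonneg_right (cheb_block j) (by positivity)
    _ = 2 * Real.log 4 * ρ ^ j := by
        rw [pow_succ]; field_simp

/-- Sum over a range of dyadic blocks. -/
lemma dyadic_sum (ε : ℝ) (hε : 0 ≤ ε) (i n : ℕ) :
    ∑ p ∈ Ioc (2 ^ i : ℕ) (2 ^ (i + n)), wAll ε p
      ≤ 2 * Real.log 4 * ∑ j ∈ Ico i (i + n), ((2 : ℝ) ^ (-ε)) ^ j := by
  induction n with
  | zero => simp
  | succ n ih =>
    have h1 : (2 ^ i : ℕ) ≤ 2 ^ (i + n) := Nat.pow_le_pow_right (by norm_num) (by omega)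
    have h2 : (2 ^ (i + n) : ℕ) ≤ 2 ^ (i + n + 1) := Nat.pow_le_pow_right (by norm_num) (by omega)
    rw [show i + (n + 1) = i + n + 1 by ring, ← Finset.sum_Ioc_consecutive _ h1 h2,
      Finset.sum_Ico_succ_top (by omega), mul_add]
    exact add_le_add ih (block_bound ε hε (i + n))

/-- The total weight of all primes up to `2 ^ I`. -/
lemma wAll_zero_le (I : ℕ) :
    ∑ p ∈ Ioc (1 : ℕ) (2 ^ I), wAll 0 p ≤ 3 * I := by
  have h := dyadic_sum 0 le_rfl 0 I
  simp only [pow_zero, zero_add, neg_zero, Real.rpow_zero, one_pow, Finset.sum_const,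
    Nat.card_Ico, tsub_zero, nsmul_eq_mul, mul_one] at h
  refine h.trans ?_
  have hl : Real.log 4 ≤ 3 / 2 := by
    have h4 : Real.log 4 = 2 * Real.log 2 := by
      rw [show (4 : ℝ) = 2 ^ 2 by norm_num, Real.log_pow]; norm_num
    have := Real.log_two_lt_d9
    rw [h4]; linarith
  have hI : (0 : ℝ) ≤ I := Nat.cast_nonneg I
  nlinarith

/-- The main lower bound, from the Dirichlet theorem in Mathlib. -/
lemma wOne_lower : ∃ C : ℝ, ∀ i : ℕ, 5 ≤ i →
    (i : ℝ) / 20 - C ≤ ∑ p ∈ Ioc (1 : ℕ) (2 ^ i), wOne 0 p := by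
  obtain ⟨C₀, hC₀⟩ := ArithmeticFunction.vonMangoldt.LSeries_residueClass_lower_bound
    (q := 4) (a := (1 : ZMod 4)) isUnit_one
  have hsum := ArithmeticFunction.vonMangoldt.summable_residueClass_non_primes_div
    (q := 4) (a := (1 : ZMod 4))
  set Cn : ℝ := ∑' n : ℕ, (if n.Prime then 0 else
    ArithmeticFunction.vonMangoldt.residueClass (1 : ZMod 4) n) / n with hCn
  refine ⟨C₀ + Cn, fun i hi => ?_⟩
  have hi0 : (0 : ℝ) < i := by
    have : 0 < i := by omega
    exact_mod_cast this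
  have hi5 : (5 : ℝ) ≤ i := by exact_mod_cast hi
  set ε : ℝ := 5 / i with hε
  have hε0 : 0 < ε := by positivity
  have hε1 : ε ≤ 1 := by
    rw [hε, div_le_one hi0]; exact hi5
  have hx : (1 + ε) ∈ Set.Ioc (1 : ℝ) 2 := ⟨by linarith, by linarith⟩
  have h1 := hC₀ hx
  have htot : (Nat.totient 4 : ℝ)⁻¹ = 1 / 2 := by
    have : Nat.totient 4 = 2 := by decide
    rw [this]; norm_num
  rw [htot, add_sub_cancel_left] at h1
  set ρ : ℝ := (2 : ℝ) ^ (-ε) with hρ
  have hρpos : 0 < ρ := Real.rpow_pos_of_pos (by norm_num) _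
  have hρlt : ρ < 1 := Real.rpow_lt_one_of_one_lt_of_neg (by norm_num) (by linarith)
  have hρi : ρ ^ i = 1 / 32 := by
    rw [hρ, ← Real.rpow_natCast, ← Real.rpow_mul (by norm_num)]
    have : -ε * (i : ℝ) = -5 := by
      rw [hε]; field_simp
    rw [this, Real.rpow_neg (by norm_num)]
    norm_num
  have hlog2 : 0 < Real.log 2 := Real.log_pos (by norm_num)
  have hlog2' : Real.log 2 < 1 := by
    have := Real.log_two_lt_d9; linarith
  -- the geometric tail
  have hgeom : 1 / (1 - ρ) ≤ (1 + Real.log 2) / (Real.log 2 * ε) := by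
    have h3 : 1 + ε * Real.log 2 ≤ ρ⁻¹ := by
      have h4 : ρ⁻¹ = Real.exp (ε * Real.log 2) := by
        rw [hρ, Real.rpow_neg (by norm_num), inv_inv, Real.rpow_def_of_pos (by norm_num), mul_comm]
      rw [h4]
      linarith [Real.add_one_le_exp (ε * Real.log 2)]
    have h5 : ρ * (1 + ε * Real.log 2) ≤ 1 := by
      have := mul_le_mul_of_nonneg_left h3 hρpos.le
      rwa [mul_inv_cancel₀ hρpos.ne'] at this
    have h6 : 0 < 1 - ρ := by linarith
    rw [div_le_div_iff₀ h6 (by positivity)]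
    have h7 : ε * Real.log 2 ≤ Real.log 2 := by nlinarith
    have h8 : (1 + ε * Real.log 2) * (1 - ρ) ≤ (1 + Real.log 2) * (1 - ρ) :=
      mul_le_mul_of_nonneg_right (by linarith) h6.le
    nlinarith
  have htail : ∀ n : ℕ, ∑ p ∈ Ioc (2 ^ i : ℕ) (2 ^ (i + n)), wAll ε p ≤ (i : ℝ) / 20 := by
    intro n
    refine (dyadic_sum ε hε0.le i n).trans ?_
    have h3 : ∑ j ∈ Ico i (i + n), ρ ^ j ≤ ρ ^ i / (1 - ρ) :=
      geom_sum_Ico_le_of_lt_one hρpos.le hρlt
    have h4 : Real.log 4 = 2 * Real.log 2 := by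
      rw [show (4 : ℝ) = 2 ^ 2 by norm_num, Real.log_pow]; norm_num
    rw [hρi] at h3
    have h5 : (1 / 32 : ℝ) / (1 - ρ) ≤ (1 / 32) * ((1 + Real.log 2) / (Real.log 2 * ε)) := by
      rw [div_eq_mul_one_div]
      exact mul_le_mul_of_nonneg_left hgeom (by norm_num)
    have h6 : 2 * Real.log 4 * ((1 / 32) * ((1 + Real.log 2) / (Real.log 2 * ε)))
        = (1 + Real.log 2) / 8 * (i / 5 : ℝ) := by
      rw [h4, hε]; field_simp; ring
    calc 2 * Real.log 4 * ∑ j ∈ Ico i (i + n), ρ ^ j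
        ≤ 2 * Real.log 4 * ((1 / 32) * ((1 + Real.log 2) / (Real.log 2 * ε))) := by
          apply mul_le_mul_of_nonneg_left (h3.trans h5)
          rw [h4]; positivity
      _ = (1 + Real.log 2) / 8 * (i / 5 : ℝ) := h6
      _ ≤ (1 / 4) * (i / 5 : ℝ) := by
          apply mul_le_mul_of_nonneg_right _ (by positivity)
          linarith
      _ = (i : ℝ) / 20 := by ring
  -- the tail of the Dirichlet series
  set G : ℝ := ∑ p ∈ Ioc (1 : ℕ) (2 ^ i), wOne 0 p with hG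
  have hterm : ∀ n : ℕ, ArithmeticFunction.vonMangoldt.residueClass (1 : ZMod 4) n
        / (n : ℝ) ^ (1 + ε)
      ≤ (if n.Prime then 0 else ArithmeticFunction.vonMangoldt.residueClass (1 : ZMod 4) n) / n
        + wOne ε n := by
    intro n
    by_cases hn : n.Prime
    · have hr : ArithmeticFunction.vonMangoldt.residueClass (1 : ZMod 4) n
          = if n % 4 = 1 then Real.log n else 0 := by
        have h2 : ((n : ZMod 4) = 1) ↔ n % 4 = 1 := by
          have := ZMod.natCast_eq_natCast_iff' n 1 4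
          simpa using this
        simp only [ArithmeticFunction.vonMangoldt.residueClass, Set.indicator_apply,
          Set.mem_ofPred_eq, h2, ArithmeticFunction.vonMangoldt_apply_prime hn]
      unfold wOne
      simp only [hn, if_true, true_and, zero_div, zero_add]
      rw [hr]
      split_ifs <;> simp
    · have hw : wOne ε n = 0 := by simp [wOne, hn]
      rw [hw, add_zero]
      simp only [hn, if_false]
      rcases Nat.eq_zero_or_pos n with h0 | hpos
      · simp [h0]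
      · have hn1 : (1 : ℝ) ≤ n := by exact_mod_cast hpos
        apply div_le_div_of_nonneg_left
          (ArithmeticFunction.vonMangoldt.residueClass_nonneg _ n) (by linarith)
        calc (n : ℝ) = (n : ℝ) ^ (1 : ℝ) := (Real.rpow_one _).symm
          _ ≤ (n : ℝ) ^ (1 + ε) := Real.rpow_le_rpow_of_exponent_le hn1 (by linarith)
  have hwOne_small : ∀ n : ℕ, n ≤ 1 → wOne ε n = 0 := by
    intro n hn
    have : ¬ n.Prime := fun h => by have := h.one_lt; omega
    simp [wOne, this]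
  have hpartial : ∀ N : ℕ, ∑ n ∈ range N, ArithmeticFunction.vonMangoldt.residueClass (1 : ZMod 4) n
        / (n : ℝ) ^ (1 + ε) ≤ Cn + (G + (i : ℝ) / 20) := by
    intro N
    have h2 : ∑ n ∈ range N, (if n.Prime then 0 else
        ArithmeticFunction.vonMangoldt.residueClass (1 : ZMod 4) n) / n ≤ Cn := by
      apply hsum.sum_le_tsum
      intro n _
      positivity [ArithmeticFunction.vonMangoldt.residueClass_nonneg (1 : ZMod 4) n]
    have h3 : ∑ n ∈ range N, wOne ε n ≤ G + (i : ℝ) / 20 := by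
      have hN : N ≤ 2 ^ (i + N) := by
        have h5 : N < 2 ^ N := Nat.lt_two_pow_self
        have h6 : 2 ^ N ≤ 2 ^ (i + N) := Nat.pow_le_pow_right (by norm_num) (by omega)
        omega
      have h4 : ∑ n ∈ range N, wOne ε n ≤ ∑ n ∈ Ioc (1 : ℕ) (2 ^ (i + N)), wOne ε n := by
        have h7 : ∑ n ∈ range N, wOne ε n = ∑ n ∈ (range N).filter (fun n => 1 < n), wOne ε n := by
          symm
          apply Finset.sum_filter_of_ne
          intro n _ hne
          by_contra h8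
          exact hne (hwOne_small n (by omega))
        rw [h7]
        apply Finset.sum_le_sum_of_subset_of_nonneg
        · intro n hn
          rw [Finset.mem_filter, Finset.mem_range] at hn
          rw [Finset.mem_Ioc]
          omega
        · intro n _ _
          exact wOne_nonneg ε n
      have h5 : (2 ^ i : ℕ) ≤ 2 ^ (i + N) := Nat.pow_le_pow_right (by norm_num) (by omega)
      have h6 : (1 : ℕ) ≤ 2 ^ i := Nat.one_le_two_pow
      rw [← Finset.sum_Ioc_consecutive _ h6 h5] at h4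
      have h7 : ∑ n ∈ Ioc (1 : ℕ) (2 ^ i), wOne ε n ≤ G :=
        Finset.sum_le_sum fun n _ => wOne_mono ε hε0.le n
      have h8 : ∑ n ∈ Ioc (2 ^ i : ℕ) (2 ^ (i + N)), wOne ε n ≤ (i : ℝ) / 20 :=
        (Finset.sum_le_sum fun n _ => wOne_le_wAll ε n).trans (htail N)
      linarith
    calc ∑ n ∈ range N, ArithmeticFunction.vonMangoldt.residueClass (1 : ZMod 4) n
          / (n : ℝ) ^ (1 + ε)
        ≤ ∑ n ∈ range N, ((if n.Prime then 0 else
            ArithmeticFunction.vonMangoldt.residueClass (1 : ZMod 4) n) / n + wOne ε n) :=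
          Finset.sum_le_sum fun n _ => hterm n
      _ = ∑ n ∈ range N, (if n.Prime then 0 else
            ArithmeticFunction.vonMangoldt.residueClass (1 : ZMod 4) n) / n
          + ∑ n ∈ range N, wOne ε n := Finset.sum_add_distrib
      _ ≤ Cn + (G + (i : ℝ) / 20) := add_le_add h2 h3
  have hCnG : 0 ≤ Cn + (G + (i : ℝ) / 20) := by
    have h0 : 0 ≤ G := Finset.sum_nonneg fun n _ => wOne_nonneg 0 n
    have h00 : 0 ≤ Cn := tsum_nonneg fun n => by
      positivity [ArithmeticFunction.vonMangoldt.residueClass_nonneg (1 : ZMod 4) n]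
    positivity
  have htsum := Real.tsum_le_of_sum_range_le (c := Cn + (G + (i : ℝ) / 20))
    (f := fun n : ℕ => ArithmeticFunction.vonMangoldt.residueClass (1 : ZMod 4) n
      / (n : ℝ) ^ (1 + ε))
    (fun n => div_nonneg (ArithmeticFunction.vonMangoldt.residueClass_nonneg _ n)
      (Real.rpow_nonneg (Nat.cast_nonneg n) _)) hpartial
  have h2 : (1 / 2 : ℝ) / ε = (i : ℝ) / 10 := by
    rw [hε]; field_simp; norm_num
  rw [h2] at h1
  linarith

lemma wOne_zero_le (I : ℕ) : ∑ p ∈ Ioc (1 : ℕ) (2 ^ I), wOne 0 p ≤ 3 * I :=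
  (Finset.sum_le_sum fun n _ => wOne_le_wAll 0 n).trans (wAll_zero_le I)

/-- weight `1 / p` on primes congruent to 1 modulo 4 -/
noncomputable def invOne (p : ℕ) : ℝ := if p.Prime ∧ p % 4 = 1 then (1 : ℝ) / p else 0

lemma invOne_nonneg (p : ℕ) : 0 ≤ invOne p := by
  unfold invOne
  split_ifs <;> positivity

/-- Each block `(2 ^ I, 2 ^ (80 * I)]` carries a fixed amount of the sum of `1 / p`. -/
lemma block_inv : ∃ I₀ : ℕ, ∀ I, I₀ ≤ I →
    (1 : ℝ) / 160 ≤ ∑ p ∈ Ioc (2 ^ I : ℕ) (2 ^ (80 * I)), invOne p := by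
  obtain ⟨C, hC⟩ := wOne_lower
  refine ⟨⌈2 * C⌉₊ + 1, fun I hI => ?_⟩
  have hI1 : 1 ≤ I := by omega
  have hI0 : (0 : ℝ) < I := by exact_mod_cast hI1
  have hIC : 2 * C ≤ I := by
    have h1 : 2 * C ≤ (⌈2 * C⌉₊ : ℝ) := Nat.le_ceil _
    have h2 : ((⌈2 * C⌉₊ + 1 : ℕ) : ℝ) ≤ I := by exact_mod_cast hI
    push_cast at h2
    linarith
  have h1 := hC (80 * I) (by omega)
  have h2 := wOne_zero_le I
  have h3 : (1 : ℕ) ≤ 2 ^ I := Nat.one_le_two_pow
  have h4 : (2 ^ I : ℕ) ≤ 2 ^ (80 * I) := Nat.pow_le_pow_right (by norm_num) (by omega)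
  rw [← Finset.sum_Ioc_consecutive _ h3 h4] at h1
  push_cast at h1
  have h5 : (I : ℝ) / 2 ≤ ∑ p ∈ Ioc (2 ^ I : ℕ) (2 ^ (80 * I)), wOne 0 p := by
    linarith
  have h6 : ∑ p ∈ Ioc (2 ^ I : ℕ) (2 ^ (80 * I)), wOne 0 p
      ≤ (80 * I : ℝ) * ∑ p ∈ Ioc (2 ^ I : ℕ) (2 ^ (80 * I)), invOne p := by
    rw [Finset.mul_sum]
    refine Finset.sum_le_sum fun p hp => ?_
    unfold wOne invOne
    by_cases h : p.Prime ∧ p % 4 = 1
    · simp only [h, and_self, if_true, add_zero, Real.rpow_one]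
      rw [Finset.mem_Ioc] at hp
      have hp0 : (0 : ℝ) < p := by exact_mod_cast h.1.pos
      have hplog : Real.log p ≤ 80 * I := by
        have h7 : (p : ℝ) ≤ 2 ^ (80 * I) := by exact_mod_cast hp.2
        have h8 := Real.log_le_log hp0 h7
        rw [Real.log_pow] at h8
        have hl2 : Real.log 2 ≤ 1 := by
          have := Real.log_two_lt_d9; linarith
        push_cast at h8
        have : (0 : ℝ) ≤ 80 * I := by positivity
        nlinarith
      rw [div_le_iff₀ hp0]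
      have : (80 * I : ℝ) * (1 / p) * p = 80 * I := by field_simp
      linarith
    · simp [h]
  have h7 := h5.trans h6
  by_contra hcon
  push Not at hcon
  have : (80 * I : ℝ) * ∑ p ∈ Ioc (2 ^ I : ℕ) (2 ^ (80 * I)), invOne p < (80 * I : ℝ) * (1 / 160) :=
    mul_lt_mul_of_pos_left hcon (by positivity)
  linarith

/-- Iteration of the blocks. -/
lemma iter_inv (I₀ : ℕ) (h : ∀ I, I₀ ≤ I →
    (1 : ℝ) / 160 ≤ ∑ p ∈ Ioc (2 ^ I : ℕ) (2 ^ (80 * I)), invOne p) (I : ℕ) (hI : I₀ ≤ I) (m : ℕ) :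
    (m : ℝ) / 160 ≤ ∑ p ∈ Ioc (2 ^ I : ℕ) (2 ^ (80 ^ m * I)), invOne p := by
  induction m with
  | zero => simp
  | succ m ih =>
    have h1 : I ≤ 80 ^ m * I := Nat.le_mul_of_pos_left I (by positivity)
    have h2 : (2 ^ I : ℕ) ≤ 2 ^ (80 ^ m * I) := Nat.pow_le_pow_right (by norm_num) h1
    have h3 : (2 ^ (80 ^ m * I) : ℕ) ≤ 2 ^ (80 * (80 ^ m * I)) :=
      Nat.pow_le_pow_right (by norm_num) (by omega)
    have h4 : 80 ^ (m + 1) * I = 80 * (80 ^ m * I) := by ring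
    rw [h4, ← Finset.sum_Ioc_consecutive _ h2 h3]
    have h5 := h (80 ^ m * I) (hI.trans h1)
    push_cast
    linarith [show ((m : ℝ) + 1) / 160 = (m : ℝ) / 160 + 1 / 160 by ring]

/-- Trimming a finite sum of terms of size at most one. -/
lemma trim {α : Type*} [DecidableEq α] (f : α → ℝ) (A : ℝ) (hA0 : 0 ≤ A) (S : Finset α)
    (h1 : ∀ x ∈ S, f x ≤ 1) (hA : A ≤ ∑ x ∈ S, f x) :
    ∃ S' ⊆ S, A ≤ ∑ x ∈ S', f x ∧ ∑ x ∈ S', f x ≤ A + 1 := by
  induction S using Finset.induction_on with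
  | empty => exact ⟨∅, subset_rfl, hA, by simp; linarith⟩
  | insert q S hq ih =>
    by_cases hle : ∑ x ∈ insert q S, f x ≤ A + 1
    · exact ⟨_, subset_rfl, hA, hle⟩
    · push Not at hle
      rw [Finset.sum_insert hq] at hle
      have hq1 := h1 q (Finset.mem_insert_self _ _)
      obtain ⟨S', hS', h2, h3⟩ := ih (fun x hx => h1 x (Finset.mem_insert_of_mem hx))
        (by linarith)
      exact ⟨S', hS'.trans (Finset.subset_insert _ _), h2, h3⟩

/-- The weak Mertens theorem in the form needed for the sieve. -/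
theorem exists_primes (A : ℝ) (hA : 0 ≤ A) : ∃ T P₀ : ℕ, 1 ≤ T ∧ ∀ P, P₀ ≤ P →
    ∃ S : Finset ℕ, (∀ p ∈ S, p.Prime ∧ p % 4 = 1 ∧ P < p ∧ p ≤ P ^ T) ∧
      A ≤ ∑ p ∈ S, (1 : ℝ) / p ∧ ∑ p ∈ S, (1 : ℝ) / p ≤ A + 1 := by
  obtain ⟨I₀, hI₀⟩ := block_inv
  let m := ⌈160 * A⌉₊
  refine ⟨2 * 80 ^ m, 2 ^ (I₀ + 2), by have : 0 < 80 ^ m := by positivity
                                       omega, fun P hP => ?_⟩
  have hP0 : P ≠ 0 := by
    have : 0 < 2 ^ (I₀ + 2) := by positivity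
    omega
  have hlog : I₀ + 2 ≤ Nat.log 2 P := Nat.le_log_of_pow_le (by norm_num) hP
  set I := Nat.log 2 P + 1 with hI
  have hIP : P < 2 ^ I := Nat.lt_pow_succ_log_self (by norm_num) P
  have hIP2 : 2 ^ (I - 1) ≤ P := by
    have : I - 1 = Nat.log 2 P := by omega
    rw [this]
    exact Nat.pow_log_le_self 2 hP0
  have h1 := iter_inv I₀ hI₀ I (by omega) m
  have h2 : A ≤ (m : ℝ) / 160 := by
    have : 160 * A ≤ (m : ℝ) := Nat.le_ceil _
    linarith
  let S₀ := (Ioc (2 ^ I : ℕ) (2 ^ (80 ^ m * I))).filter (fun p => p.Prime ∧ p % 4 = 1)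
  have h3 : ∑ p ∈ S₀, (1 : ℝ) / p = ∑ p ∈ Ioc (2 ^ I : ℕ) (2 ^ (80 ^ m * I)), invOne p := by
    rw [Finset.sum_filter]
    rfl
  obtain ⟨S, hS, h4, h5⟩ := trim (fun p : ℕ => (1 : ℝ) / p) A hA S₀
    (fun p hp => by
      have hpr := (Finset.mem_filter.mp hp).2.1
      have hp1 : (1 : ℝ) ≤ p := by exact_mod_cast hpr.one_lt.le
      rw [div_le_one (by linarith)]
      exact hp1)
    (by rw [h3]; linarith)
  refine ⟨S, fun p hp => ?_, h4, h5⟩
  have hp2 := Finset.mem_filter.mp (hS hp)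
  have hp3 := Finset.mem_Ioc.mp hp2.1
  refine ⟨hp2.2.1, hp2.2.2, by omega, hp3.2.trans ?_⟩
  have hI2 : 2 ≤ I := by omega
  calc 2 ^ (80 ^ m * I) ≤ 2 ^ ((I - 1) * (2 * 80 ^ m)) := by
        apply Nat.pow_le_pow_right (by norm_num)
        have : I ≤ 2 * (I - 1) := by omega
        calc 80 ^ m * I ≤ 80 ^ m * (2 * (I - 1)) := Nat.mul_le_mul_left _ this
          _ = (I - 1) * (2 * 80 ^ m) := by ring
    _ = (2 ^ (I - 1)) ^ (2 * 80 ^ m) := by rw [pow_mul]
    _ ≤ P ^ (2 * 80 ^ m) := Nat.pow_le_pow_left hIP2 _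

end Vale.Agent.Lib.P015
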