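import Mathlib

/-!
Numerical estimates, and approximation of a direction by a primitive integer vector.
-/

namespace Vale.Agent.Lib.P015

open Finset

/-- Dirichlet approximation for a direction, first case. -/
lemma exists_dir_aux (α β : ℝ) (hαβ : α ^ 2 + β ^ 2 = 1) (hle : |α| ≤ |β|) (Q : ℕ) (hQ : 0 < Q) :
    ∃ v₁ v₂ : ℤ, IsCoprime v₁ v₂ ∧ |(v₁ : ℝ)| ≤ Q + 1 ∧ |(v₂ : ℝ)| ≤ Q + 1 ∧
      |α * v₁ + β * v₂| ≤ 1 / (Q + 1) := by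
  have hβ0 : β ≠ 0 := by
    intro h
    rw [h, abs_zero] at hle
    have : α = 0 := abs_eq_zero.mp (le_antisymm hle (abs_nonneg _))
    rw [this, h] at hαβ
    norm_num at hαβ
  have hβ1 : |β| ≤ 1 := by
    rw [abs_le_one_iff_mul_self_le_one]
    nlinarith [sq_nonneg α]
  set ξ := α / β with hξ
  have hξ1 : |ξ| ≤ 1 := by
    rw [hξ, abs_div, div_le_one (abs_pos.mpr hβ0)]
    exact hle
  obtain ⟨q, hq1, hq2⟩ := Real.exists_rat_abs_sub_le_and_den_le ξ hQ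
  have hd : (0 : ℝ) < q.den := by exact_mod_cast q.pos
  have hQ' : (0 : ℝ) < (Q : ℝ) + 1 := by positivity
  have hdQ : (q.den : ℝ) ≤ Q := by exact_mod_cast hq2
  have hq : (q : ℝ) * q.den = q.num := by
    have h := Rat.mul_den_eq_num q
    exact_mod_cast h
  have hbound : |ξ - q| * q.den ≤ 1 / ((Q : ℝ) + 1) := by
    have h1 : (1 : ℝ) / (((Q : ℝ) + 1) * q.den) * q.den = 1 / ((Q : ℝ) + 1) := by
      field_simp
    rw [← h1]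
    exact mul_le_mul_of_nonneg_right hq1 hd.le
  have h1Q : 1 / ((Q : ℝ) + 1) ≤ 1 := by
    rw [div_le_one hQ']
    have : (0 : ℝ) ≤ Q := Nat.cast_nonneg Q
    linarith
  refine ⟨q.den, -q.num, ?_, ?_, ?_, ?_⟩
  · apply IsCoprime.neg_right
    rw [Int.isCoprime_iff_gcd_eq_one]
    have := q.reduced
    rw [Nat.coprime_comm] at this
    simpa [Int.gcd] using this
  · rw [Int.cast_natCast, abs_of_pos hd]
    linarith
  · rw [Int.cast_neg, abs_neg, ← hq, abs_mul, abs_of_pos hd]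
    have h2 : |(q : ℝ)| ≤ |ξ| + |ξ - q| := by
      have := abs_sub_abs_le_abs_sub (q : ℝ) ξ
      rw [abs_sub_comm] at this
      linarith
    calc |(q : ℝ)| * q.den ≤ (|ξ| + |ξ - q|) * q.den := mul_le_mul_of_nonneg_right h2 hd.le
      _ = |ξ| * q.den + |ξ - q| * q.den := by ring
      _ ≤ 1 * Q + 1 := by
          apply add_le_add _ (hbound.trans h1Q)
          exact mul_le_mul hξ1 hdQ hd.le (by norm_num)
      _ = (Q : ℝ) + 1 := by ring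
  · have h3 : α * ((q.den : ℤ) : ℝ) + β * ((-q.num : ℤ) : ℝ) = β * (q.den * (ξ - q)) := by
      have h4 : α = β * ξ := by rw [hξ]; field_simp
      rw [Int.cast_natCast, Int.cast_neg, ← hq, h4]
      ring
    rw [h3, abs_mul, abs_mul, abs_of_pos hd]
    calc |β| * ((q.den : ℝ) * |ξ - q|) ≤ 1 * ((q.den : ℝ) * |ξ - q|) :=
          mul_le_mul_of_nonneg_right hβ1 (by positivity)
      _ = |ξ - q| * q.den := by ring
      _ ≤ 1 / ((Q : ℝ) + 1) := hbound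

/-- Dirichlet approximation for a direction. -/
lemma exists_dir (α β : ℝ) (hαβ : α ^ 2 + β ^ 2 = 1) (Q : ℕ) (hQ : 0 < Q) :
    ∃ v₁ v₂ : ℤ, IsCoprime v₁ v₂ ∧ |(v₁ : ℝ)| ≤ Q + 1 ∧ |(v₂ : ℝ)| ≤ Q + 1 ∧
      |α * v₁ + β * v₂| ≤ 1 / (Q + 1) := by
  rcases le_total |α| |β| with h | h
  · exact exists_dir_aux α β hαβ h Q hQ
  · obtain ⟨v₁, v₂, h1, h2, h3, h4⟩ := exists_dir_aux β α (by linarith) h Q hQ
    exact ⟨v₂, v₁, h1.symm, h3, h2, by rwa [add_comm]⟩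

lemma numeric_part1 (Δ b₀ k : ℕ) (Q : ℝ) (hΔ : 1 ≤ Δ) (hb₀pos : 0 < b₀) (hk : 224 * Δ ≤ k) :
    (b₀ : ℝ) ^ k * (14 * (2 : ℝ) ^ k * Q ^ 2 *
      (2 * Real.exp (-((k : ℝ) * (Real.log (b₀ : ℝ) + 2))))) ≤ Q ^ 2 / (4 * ((Δ : ℝ) * k)) := by
  have hk1' : 1 ≤ k := by omega
  have hk1 : (1 : ℝ) ≤ k := by exact_mod_cast hk1'
  have hk0 : (0 : ℝ) < k := by linarith
  have hΔR : (1 : ℝ) ≤ Δ := by exact_mod_cast hΔ
  have hΔ0 : (0 : ℝ) < Δ := by linarith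
  have hb₀R : (0 : ℝ) < (b₀ : ℝ) := by exact_mod_cast hb₀pos
  have hH : (2 : ℝ) ^ k ≤ Real.exp k := by
    have h1 : (2 : ℝ) ≤ Real.exp 1 := by
      have := Real.exp_one_gt_d9; linarith
    calc (2 : ℝ) ^ k ≤ Real.exp 1 ^ k := pow_le_pow_left₀ (by norm_num) h1 k
      _ = Real.exp k := by rw [← Real.exp_nat_mul]; simp
  have hexp1 : (b₀ : ℝ) ^ k * Real.exp (-((k : ℝ) * (Real.log (b₀ : ℝ) + 2)))
      = Real.exp (-(2 * k)) := by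
    have h1 : (b₀ : ℝ) ^ k = Real.exp (k * Real.log b₀) := by
      rw [Real.exp_nat_mul, Real.exp_log hb₀R]
    rw [h1, ← Real.exp_add]
    congr 1
    ring
  have hkexp : (k : ℝ) ^ 2 / 2 ≤ Real.exp k := by
    have := Real.quadratic_le_exp_of_nonneg hk0.le
    linarith
  have h1 : (b₀ : ℝ) ^ k * (14 * (2 : ℝ) ^ k * Q ^ 2 *
      (2 * Real.exp (-((k : ℝ) * (Real.log (b₀ : ℝ) + 2)))))
      = 28 * ((2 : ℝ) ^ k * Real.exp (-(2 * k))) * Q ^ 2 := by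
    rw [← hexp1]; ring
  rw [h1]
  have h2 : (2 : ℝ) ^ k * Real.exp (-(2 * k)) ≤ Real.exp (-(k : ℝ)) := by
    calc (2 : ℝ) ^ k * Real.exp (-(2 * k)) ≤ Real.exp k * Real.exp (-(2 * k)) :=
          mul_le_mul_of_nonneg_right hH (Real.exp_pos _).le
      _ = Real.exp (-(k : ℝ)) := by
          rw [← Real.exp_add]; congr 1; ring
  have h3 : Real.exp (-(k : ℝ)) ≤ 2 / (k : ℝ) ^ 2 := by
    rw [Real.exp_neg]
    have h6 : (Real.exp k)⁻¹ ≤ ((k : ℝ) ^ 2 / 2)⁻¹ := inv_anti₀ (by positivity) hkexp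
    have h7 : ((k : ℝ) ^ 2 / 2)⁻¹ = 2 / (k : ℝ) ^ 2 := by field_simp
    rwa [h7] at h6
  have h4 : 28 * (2 / (k : ℝ) ^ 2) * Q ^ 2 ≤ Q ^ 2 / (4 * ((Δ : ℝ) * k)) := by
    rw [le_div_iff₀ (by positivity)]
    have h5 : (224 : ℝ) * Δ ≤ k := by exact_mod_cast hk
    have h6 : 28 * (2 / (k : ℝ) ^ 2) * Q ^ 2 * (4 * (Δ * k)) = Q ^ 2 * (224 * Δ / k) := by
      field_simp; ring
    rw [h6]
    have h7 : (224 : ℝ) * Δ / k ≤ 1 := by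
      rw [div_le_one hk0]; exact h5
    have h8 : 0 ≤ Q ^ 2 := by positivity
    nlinarith
  calc 28 * ((2 : ℝ) ^ k * Real.exp (-(2 * k))) * Q ^ 2
      ≤ 28 * (2 / (k : ℝ) ^ 2) * Q ^ 2 := by
        apply mul_le_mul_of_nonneg_right _ (by positivity)
        apply mul_le_mul_of_nonneg_left (h2.trans h3) (by norm_num)
    _ ≤ Q ^ 2 / (4 * ((Δ : ℝ) * k)) := h4

lemma numeric_part2 (Δ b₀ k T a₁ s : ℕ) (hΔ : 1 ≤ Δ) (hk : 28 * Δ ≤ k) (hb₀ : b₀ ≤ k)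
    (hk2 : 2 ≤ k) (hs : s ≤ k ^ (3 * T)) :
    (b₀ : ℝ) ^ k * (7 * ((k : ℝ) ^ ((4 + (3 * T + 2) * 8 * a₁) * k)) * (2 : ℝ) ^ k
        * (1 + (k : ℝ) * s) ^ (8 * k * a₁))
      ≤ ((k : ℝ) ^ ((4 + (3 * T + 2) * 8 * a₁) * k)) ^ 2 / (4 * ((Δ : ℝ) * k)) := by
  have hkR : (2 : ℝ) ≤ k := by exact_mod_cast hk2
  have hk0 : (0 : ℝ) < k := by linarith
  have hk1 : (1 : ℝ) ≤ k := by linarith
  have hΔR : (1 : ℝ) ≤ Δ := by exact_mod_cast hΔ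
  have hΔ0 : (0 : ℝ) < Δ := by linarith
  set Q : ℝ := (k : ℝ) ^ ((4 + (3 * T + 2) * 8 * a₁) * k) with hQ
  have hQ1 : 1 ≤ Q := one_le_pow₀ hk1
  have hQ0 : 0 < Q := by linarith
  have hsZ : (s : ℝ) ≤ (k : ℝ) ^ (3 * T) := by exact_mod_cast hs
  have hZ1 : (1 : ℝ) ≤ (k : ℝ) ^ (3 * T) := one_le_pow₀ hk1
  have hR : 1 + (k : ℝ) * s ≤ (k : ℝ) ^ (3 * T + 2) := by
    have h1 : (k : ℝ) * s ≤ (k : ℝ) * (k : ℝ) ^ (3 * T) :=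
      mul_le_mul_of_nonneg_left hsZ hk0.le
    have h2 : (k : ℝ) ^ (3 * T + 2) = (k : ℝ) * ((k : ℝ) * (k : ℝ) ^ (3 * T)) := by ring
    have h3 : 1 ≤ (k : ℝ) * (k : ℝ) ^ (3 * T) := by nlinarith
    rw [h2]
    nlinarith
  have hs0 : (0 : ℝ) ≤ 1 + (k : ℝ) * s := by positivity
  have hbk : (b₀ : ℝ) ^ k ≤ (k : ℝ) ^ k := by
    have : (b₀ : ℝ) ≤ k := by exact_mod_cast hb₀
    exact pow_le_pow_left₀ (by positivity) this k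
  have h2k : (2 : ℝ) ^ k ≤ (k : ℝ) ^ k := pow_le_pow_left₀ (by norm_num) hkR k
  have h28 : (28 : ℝ) * Δ * k ≤ (k : ℝ) ^ 2 := by
    have h1 : (28 : ℝ) * Δ ≤ k := by exact_mod_cast hk
    nlinarith
  have hRk : (1 + (k : ℝ) * s) ^ (8 * k * a₁) ≤ (k : ℝ) ^ ((3 * T + 2) * (8 * k * a₁)) := by
    calc (1 + (k : ℝ) * s) ^ (8 * k * a₁) ≤ ((k : ℝ) ^ (3 * T + 2)) ^ (8 * k * a₁) :=
          pow_le_pow_left₀ hs0 hR _
      _ = (k : ℝ) ^ ((3 * T + 2) * (8 * k * a₁)) := (pow_mul _ _ _).symm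
  have hprodQ : (28 : ℝ) * Δ * k * ((b₀ : ℝ) ^ k * ((2 : ℝ) ^ k * (1 + (k : ℝ) * s) ^ (8 * k * a₁)))
      ≤ Q := by
    calc (28 : ℝ) * Δ * k * ((b₀ : ℝ) ^ k * ((2 : ℝ) ^ k * (1 + (k : ℝ) * s) ^ (8 * k * a₁)))
        ≤ (k : ℝ) ^ 2 * ((k : ℝ) ^ k * ((k : ℝ) ^ k * (k : ℝ) ^ ((3 * T + 2) * (8 * k * a₁)))) := by
          gcongr
      _ = (k : ℝ) ^ (2 + (k + (k + (3 * T + 2) * (8 * k * a₁)))) := by
          rw [pow_add, pow_add, pow_add]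
      _ ≤ Q := by
          rw [hQ]
          apply pow_le_pow_right₀ hk1
          have h3 : (3 * T + 2) * (8 * k * a₁) = (3 * T + 2) * 8 * a₁ * k := by ring
          rw [h3]
          have h2k' : 2 + (k + k) ≤ 4 * k := by omega
          have h4 : (4 + (3 * T + 2) * 8 * a₁) * k = 4 * k + (3 * T + 2) * 8 * a₁ * k := by ring
          rw [h4]
          omega
  rw [le_div_iff₀ (by positivity)]
  have h1 : (b₀ : ℝ) ^ k * (7 * Q * (2 : ℝ) ^ k * (1 + (k : ℝ) * s) ^ (8 * k * a₁))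
      * (4 * (Δ * k))
      = Q * ((28 : ℝ) * Δ * k * ((b₀ : ℝ) ^ k * ((2 : ℝ) ^ k * (1 + (k : ℝ) * s) ^ (8 * k * a₁)))) := by
    ring
  rw [h1, sq]
  exact mul_le_mul_of_nonneg_left hprodQ hQ0.le

lemma numeric_part3 (Δ k T a₁ M : ℕ) (hΔ : 1 ≤ Δ) (hk : 4 * Δ ≤ k) (hk16 : 16 ≤ k)
    (ha₁ : 1 ≤ a₁) (hM : M ≤ k ^ (3 * T)) :
    (2 * (M : ℝ) + 1) ^ 2 + 1
      ≤ ((k : ℝ) ^ ((4 + (3 * T + 2) * 8 * a₁) * k)) ^ 2 / (4 * ((Δ : ℝ) * k)) := by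
  have hkR : (16 : ℝ) ≤ k := by exact_mod_cast hk16
  have hk0 : (0 : ℝ) < k := by linarith
  have hk1 : (1 : ℝ) ≤ k := by linarith
  have hΔR : (1 : ℝ) ≤ Δ := by exact_mod_cast hΔ
  have hΔ0 : (0 : ℝ) < Δ := by linarith
  rw [le_div_iff₀ (by positivity)]
  have hMZ : (M : ℝ) ≤ (k : ℝ) ^ (3 * T) := by exact_mod_cast hM
  have hZ1 : (1 : ℝ) ≤ (k : ℝ) ^ (3 * T) := one_le_pow₀ hk1
  set Z := (k : ℝ) ^ (3 * T) with hZdef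
  have hZ0 : 0 ≤ Z := by linarith
  have h1 : (2 * (M : ℝ) + 1) ^ 2 + 1 ≤ k * Z ^ 2 := by
    have hM0 : (0 : ℝ) ≤ M := Nat.cast_nonneg M
    have h2 : (2 * (M : ℝ) + 1) ≤ 3 * Z := by linarith
    have h3 : (2 * (M : ℝ) + 1) ^ 2 ≤ (3 * Z) ^ 2 := pow_le_pow_left₀ (by positivity) h2 2
    have h4 : (1 : ℝ) ≤ Z ^ 2 := one_le_pow₀ hZ1
    have h5 : 16 * Z ^ 2 ≤ k * Z ^ 2 := mul_le_mul_of_nonneg_right hkR (by positivity)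
    have h6 : (3 * Z) ^ 2 = 9 * Z ^ 2 := by ring
    linarith
  have h4 : (4 : ℝ) * (Δ * k) ≤ (k : ℝ) ^ 2 := by
    have h5 : (4 : ℝ) * Δ ≤ k := by exact_mod_cast hk
    nlinarith
  calc ((2 * (M : ℝ) + 1) ^ 2 + 1) * (4 * (Δ * k))
      ≤ (k * Z ^ 2) * (k : ℝ) ^ 2 :=
        mul_le_mul h1 h4 (by positivity) (by positivity)
    _ = (k : ℝ) ^ (3 + 6 * T) := by
        rw [hZdef]; ring
    _ ≤ (k : ℝ) ^ ((4 + (3 * T + 2) * 8 * a₁) * k * 2) := by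
        apply pow_le_pow_right₀ hk1
        have h5 : 1 * ((3 * T + 2) * 8) ≤ a₁ * ((3 * T + 2) * 8) :=
          Nat.mul_le_mul_right _ ha₁
        have h6 : (4 + (3 * T + 2) * 8 * a₁) ≤ (4 + (3 * T + 2) * 8 * a₁) * k :=
          Nat.le_mul_of_pos_right _ (by omega)
        have h7 : (3 * T + 2) * 8 * a₁ = a₁ * ((3 * T + 2) * 8) := by ring
        omega
    _ = ((k : ℝ) ^ ((4 + (3 * T + 2) * 8 * a₁) * k)) ^ 2 := by rw [pow_mul]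

/-- The numerical inequality at the end of the proof. -/
lemma numeric (Δ T a₁ : ℕ) (hΔ : 1 ≤ Δ) (ha₁ : 1 ≤ a₁) :
    ∃ k₀ : ℕ, 2 ≤ k₀ ∧ ∀ k, k₀ ≤ k → ∀ M s : ℕ, M ≤ k ^ (3 * T) → s ≤ M →
      ((2 * (M : ℝ) + 1) ^ 2 + (((2 * Δ + 1) ^ 2 : ℕ) : ℝ) ^ k *
        (14 * ((2 : ℝ) ^ k) * ((k : ℝ) ^ ((4 + (3 * T + 2) * 8 * a₁) * k)) ^ 2 *
            (2 * Real.exp (-((k : ℝ) * (Real.log (((2 * Δ + 1) ^ 2 : ℕ) : ℝ) + 2))))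
          + 7 * ((k : ℝ) ^ ((4 + (3 * T + 2) * 8 * a₁) * k)) * (2 : ℝ) ^ k *
            (1 + (k : ℝ) * s) ^ (8 * k * a₁)))
      < ((k : ℝ) ^ ((4 + (3 * T + 2) * 8 * a₁) * k)) ^ 2 / ((Δ : ℝ) * k) - 1 := by
  have hb₀pos : 0 < (2 * Δ + 1) ^ 2 := by positivity
  refine ⟨224 * Δ + (2 * Δ + 1) ^ 2 + 16, by omega, fun k hk M s hM hs => ?_⟩
  have h1 := numeric_part1 Δ _ k ((k : ℝ) ^ ((4 + (3 * T + 2) * 8 * a₁) * k)) hΔ hb₀pos (by omega)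
  have h2 := numeric_part2 Δ ((2 * Δ + 1) ^ 2) k T a₁ s hΔ (by omega) (by omega) (by omega)
    (hs.trans hM)
  have h3 := numeric_part3 Δ k T a₁ M hΔ (by omega) (by omega) ha₁ hM
  have hk2 : 2 ≤ k := by omega
  have hkR : (2 : ℝ) ≤ k := by exact_mod_cast hk2
  have hk0 : (0 : ℝ) < k := by linarith
  have hΔR : (1 : ℝ) ≤ Δ := by exact_mod_cast hΔ
  have hΔ0 : (0 : ℝ) < Δ := by linarith
  set Q : ℝ := (k : ℝ) ^ ((4 + (3 * T + 2) * 8 * a₁) * k) with hQ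
  have hQ0 : 0 < Q := by positivity
  have hD₀pos : 0 < Q ^ 2 / (4 * ((Δ : ℝ) * k)) := by positivity
  have hDk : Q ^ 2 / ((Δ : ℝ) * k) = 4 * (Q ^ 2 / (4 * ((Δ : ℝ) * k))) := by
    field_simp
  rw [hDk, mul_add]
  linarith

end Vale.Agent.Lib.P015
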