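import Vale.Agent.Lib.P015.Trunc

/-!
The Brun pure sieve over an interval of integers.
-/

namespace Vale.Agent.Lib.P015

open Finset

/-- Number of integers of an interval in a fixed residue class. -/
lemma Ico_class_count (d : ℕ) (hd : 0 < d) (a b : ℤ) (hab : a ≤ b) (w : ZMod d) :
    |(((Ico a b).filter (fun t : ℤ => (t : ZMod d) = w)).card : ℝ) - ((b - a : ℤ) : ℝ) / d| ≤ 1 := by
  obtain ⟨v, rfl⟩ := ZMod.intCast_surjective w
  have hr : (0 : ℤ) < d := by exact_mod_cast hd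
  have h1 := Int.Ico_filter_modEq_card a b hr v
  have h2 : (Ico a b).filter (fun t : ℤ => (t : ZMod d) = (v : ZMod d))
      = (Ico a b).filter (fun t : ℤ => t ≡ v [ZMOD (d : ℤ)]) := by
    refine Finset.filter_congr fun t _ => ?_
    exact ZMod.intCast_eq_intCast_iff t v d
  rw [h2]
  have hdq : (0 : ℚ) < ((d : ℤ) : ℚ) := by exact_mod_cast hd
  set X : ℚ := ((b : ℚ) - v) / ((d : ℤ) : ℚ) with hX
  set Y : ℚ := ((a : ℚ) - v) / ((d : ℤ) : ℚ) with hY
  have hXY : Y ≤ X := by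
    rw [hX, hY]
    apply div_le_div_of_nonneg_right _ hdq.le
    have : (a : ℚ) ≤ b := by exact_mod_cast hab
    linarith
  have hc : ⌈Y⌉ ≤ ⌈X⌉ := Int.ceil_le_ceil hXY
  have hmax : max (⌈X⌉ - ⌈Y⌉) 0 = ⌈X⌉ - ⌈Y⌉ := max_eq_left (by omega)
  rw [hmax] at h1
  have h3 : (((Ico a b).filter (fun t : ℤ => t ≡ v [ZMOD (d : ℤ)])).card : ℝ)
      = (⌈X⌉ : ℝ) - (⌈Y⌉ : ℝ) := by
    have : (((Ico a b).filter (fun t : ℤ => t ≡ v [ZMOD (d : ℤ)])).card : ℤ) = ⌈X⌉ - ⌈Y⌉ := h1
    have h4 : ((((Ico a b).filter (fun t : ℤ => t ≡ v [ZMOD (d : ℤ)])).card : ℤ) : ℝ)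
        = ((⌈X⌉ - ⌈Y⌉ : ℤ) : ℝ) := by rw [this]
    push_cast at h4
    exact h4
  rw [h3]
  have h5 : (X : ℝ) ≤ (⌈X⌉ : ℝ) := by exact_mod_cast Int.le_ceil X
  have h6 : (⌈X⌉ : ℝ) < (X : ℝ) + 1 := by exact_mod_cast Int.ceil_lt_add_one X
  have h7 : (Y : ℝ) ≤ (⌈Y⌉ : ℝ) := by exact_mod_cast Int.le_ceil Y
  have h8 : (⌈Y⌉ : ℝ) < (Y : ℝ) + 1 := by exact_mod_cast Int.ceil_lt_add_one Y
  have h9 : (((b - a : ℤ) : ℝ) / d) = (X : ℝ) - (Y : ℝ) := by
    rw [hX, hY]
    push_cast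
    ring
  rw [h9, abs_le]
  constructor <;> linarith

/-- Chinese remainder count: the number of integers of an interval lying in prescribed
residue classes modulo the primes of `Q`. -/
lemma crt_count (Q : Finset ℕ) (hQ : ∀ p ∈ Q, p.Prime) (K : (p : ℕ) → Finset (ZMod p)) (k : ℕ)
    (hK : ∀ p ∈ Q, (K p).card = k) (a b : ℤ) (hab : a ≤ b) :
    |(((Ico a b).filter (fun t : ℤ => ∀ p ∈ Q, (t : ZMod p) ∈ K p)).card : ℝ)
      - ((b - a : ℤ) : ℝ) * ∏ p ∈ Q, ((k : ℝ) / p)| ≤ (k : ℝ) ^ Q.card := by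
  classical
  let m : Q → ℕ := fun i => (i : ℕ)
  have hcop : Pairwise (Function.onFun Nat.Coprime m) := by
    intro i j hij
    have hi := hQ i i.2
    have hj := hQ j j.2
    exact (Nat.coprime_primes hi hj).mpr (fun h => hij (Subtype.ext h))
  let d : ℕ := ∏ i, m i
  have hdpos : 0 < d := Finset.prod_pos fun i _ => (hQ i i.2).pos
  have : NeZero d := ⟨hdpos.ne'⟩
  let e : ZMod d ≃+* Π i, ZMod (m i) := ZMod.prodEquivPi m hcop
  have he : ∀ (t : ℤ) (i : Q), e (t : ZMod d) i = (t : ZMod (m i)) := by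
    intro t i
    have h1 : e (t : ZMod d) = (t : Π i, ZMod (m i)) := map_intCast e t
    rw [h1]
    simp
  let W : Finset (ZMod d) := univ.filter (fun x => ∀ i : Q, e x i ∈ K (i : ℕ))
  have hWcard : W.card = k ^ Q.card := by
    have h1 : W.card = (Fintype.piFinset (fun i : Q => K (i : ℕ))).card := by
      refine Finset.card_bij (fun x _ => e x) ?_ ?_ ?_
      · intro x hx
        rw [Fintype.mem_piFinset]
        exact (Finset.mem_filter.mp hx).2
      · intro x _ y _ h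
        exact e.injective h
      · intro y hy
        rw [Fintype.mem_piFinset] at hy
        refine ⟨e.symm y, ?_, by simp⟩
        simp only [W, Finset.mem_filter, Finset.mem_univ, true_and, RingEquiv.apply_symm_apply]
        exact hy
    rw [h1, Fintype.card_piFinset]
    have h2 : ∀ i ∈ (univ : Finset Q), (K (i : ℕ)).card = k := fun i _ => hK i i.2
    rw [Finset.prod_congr rfl h2]
    simp
  have hsub : (Ico a b).filter (fun t : ℤ => ∀ p ∈ Q, (t : ZMod p) ∈ K p)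
      = (Ico a b).filter (fun t : ℤ => (t : ZMod d) ∈ W) := by
    refine Finset.filter_congr fun t _ => ?_
    simp only [W, Finset.mem_filter, Finset.mem_univ, true_and]
    constructor
    · intro h i
      rw [he]
      exact h i i.2
    · intro h p hp
      have := h ⟨p, hp⟩
      rw [he] at this
      exact this
  have hfib : ((Ico a b).filter (fun t : ℤ => (t : ZMod d) ∈ W)).card
      = ∑ w ∈ W, ((Ico a b).filter (fun t : ℤ => (t : ZMod d) = w)).card := by
    rw [Finset.card_eq_sum_card_fiberwise (f := fun t : ℤ => (t : ZMod d)) (t := W)]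
    · refine Finset.sum_congr rfl fun w hw => ?_
      congr 1
      ext t
      simp only [Finset.mem_filter]
      constructor
      · rintro ⟨⟨h1, _⟩, h3⟩
        exact ⟨h1, h3⟩
      · rintro ⟨h1, h3⟩
        exact ⟨⟨h1, h3 ▸ hw⟩, h3⟩
    · intro t ht
      exact (Finset.mem_filter.mp ht).2
  have hprod : ((b - a : ℤ) : ℝ) * ∏ p ∈ Q, ((k : ℝ) / p)
      = ∑ _w ∈ W, ((b - a : ℤ) : ℝ) / d := by
    have hd : (d : ℝ) = ∏ p ∈ Q, (p : ℝ) := by
      have : d = ∏ p ∈ Q, p := Finset.prod_coe_sort Q (fun p => p)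
      rw [this]; push_cast; rfl
    rw [Finset.sum_const, hWcard, nsmul_eq_mul, hd, Finset.prod_div_distrib, Finset.prod_const]
    push_cast
    ring
  rw [hsub, hfib, hprod]
  push_cast
  rw [← Finset.sum_sub_distrib]
  calc |∑ w ∈ W, (((Ico a b).filter (fun t : ℤ => (t : ZMod d) = w)).card - ((b : ℝ) - a) / d)|
      ≤ ∑ w ∈ W, |(((Ico a b).filter (fun t : ℤ => (t : ZMod d) = w)).card - ((b : ℝ) - a) / d)| :=
        Finset.abs_sum_le_sum_abs _ _
    _ ≤ ∑ _w ∈ W, (1 : ℝ) := by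
        refine Finset.sum_le_sum fun w _ => ?_
        have := Ico_class_count d hdpos a b hab w
        push_cast at this
        exact this
    _ = (k : ℝ) ^ Q.card := by
        rw [Finset.sum_const, hWcard]; simp

/-- Brun pure sieve, first form. -/
lemma sieve_upper (S : Finset ℕ) (hS : ∀ p ∈ S, p.Prime) (K : (p : ℕ) → Finset (ZMod p)) (k : ℕ)
    (hK : ∀ p ∈ S, (K p).card = k) (a b : ℤ) (hab : a ≤ b) (J : ℕ) (hJ : Even J) :
    (((Ico a b).filter (fun t : ℤ => ∀ p ∈ S, (t : ZMod p) ∉ K p)).card : ℝ)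
      ≤ ((b - a : ℤ) : ℝ) * truncSum S (fun p => (k : ℝ) / p) J
        + truncSum S (fun _ => -(k : ℝ)) J := by
  classical
  let x : ℤ → ℕ → ℝ := fun t p => if (t : ZMod p) ∈ K p then 1 else 0
  have hx0 : ∀ t p, 0 ≤ x t p := by
    intro t p; simp only [x]; split_ifs <;> norm_num
  have hx1 : ∀ t p, x t p ≤ 1 := by
    intro t p; simp only [x]; split_ifs <;> norm_num
  -- survivors are bounded pointwise by truncated sums
  have h1 : ∀ t : ℤ, (if ∀ p ∈ S, (t : ZMod p) ∉ K p then (1 : ℝ) else 0)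
      ≤ truncSum S (x t) J := by
    intro t
    have h2 := (trunc_bounds S (x t) (fun p _ => hx0 t p) (fun p _ => hx1 t p) J).1 hJ
    have h3 : ∏ p ∈ S, (1 - x t p) = if ∀ p ∈ S, (t : ZMod p) ∉ K p then (1 : ℝ) else 0 := by
      have : ∀ p ∈ S, 1 - x t p = if (t : ZMod p) ∉ K p then (1 : ℝ) else 0 := by
        intro p _
        simp only [x]
        by_cases h : (t : ZMod p) ∈ K p <;> simp [h]
      rw [Finset.prod_congr rfl this, Finset.prod_ite_zero]
      simp
    rwa [h3] at h2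
  -- product of indicators is the indicator of the intersection
  have hcQ : ∀ Q : Finset ℕ, ∑ t ∈ Ico a b, ∏ p ∈ Q, x t p
      = (((Ico a b).filter (fun t : ℤ => ∀ p ∈ Q, (t : ZMod p) ∈ K p)).card : ℝ) := by
    intro Q
    rw [Finset.card_filter]
    push_cast
    refine Finset.sum_congr rfl fun t _ => ?_
    simp only [x]
    rw [Finset.prod_ite_zero]
    simp
  have hcard : (((Ico a b).filter (fun t : ℤ => ∀ p ∈ S, (t : ZMod p) ∉ K p)).card : ℝ)
      = ∑ t ∈ Ico a b, (if ∀ p ∈ S, (t : ZMod p) ∉ K p then (1 : ℝ) else 0) := by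
    rw [Finset.card_filter]; push_cast; rfl
  rw [hcard]
  calc ∑ t ∈ Ico a b, (if ∀ p ∈ S, (t : ZMod p) ∉ K p then (1 : ℝ) else 0)
      ≤ ∑ t ∈ Ico a b, truncSum S (x t) J := Finset.sum_le_sum fun t _ => h1 t
    _ = ∑ Q ∈ S.powerset, if Q.card ≤ J then (-1 : ℝ) ^ Q.card *
          (((Ico a b).filter (fun t : ℤ => ∀ p ∈ Q, (t : ZMod p) ∈ K p)).card : ℝ) else 0 := by
        unfold truncSum
        rw [Finset.sum_comm]
        refine Finset.sum_congr rfl fun Q _ => ?_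
        split_ifs
        · rw [← hcQ, Finset.mul_sum]
        · simp
    _ ≤ ∑ Q ∈ S.powerset, ((if Q.card ≤ J then (-1 : ℝ) ^ Q.card *
            (((b - a : ℤ) : ℝ) * ∏ p ∈ Q, ((k : ℝ) / p)) else 0)
          + (if Q.card ≤ J then (k : ℝ) ^ Q.card else 0)) := by
        refine Finset.sum_le_sum fun Q hQ => ?_
        split_ifs with hc
        · have hQS : Q ⊆ S := Finset.mem_powerset.mp hQ
          have h4 := crt_count Q (fun p hp => hS p (hQS hp)) K k (fun p hp => hK p (hQS hp))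
            a b hab
          rw [abs_le] at h4
          rcases neg_one_pow_eq_or ℝ Q.card with h5 | h5 <;> rw [h5] <;> linarith [h4.1, h4.2]
        · simp
    _ = ((b - a : ℤ) : ℝ) * truncSum S (fun p => (k : ℝ) / p) J
        + truncSum S (fun _ => -(k : ℝ)) J := by
        rw [Finset.sum_add_distrib, truncSum_neg_eq]
        congr 1
        unfold truncSum
        rw [Finset.mul_sum]
        refine Finset.sum_congr rfl fun Q _ => ?_
        split_ifs
        · ring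
        · simp

/-- Brun pure sieve, numerical form. -/
theorem sieve_final (S : Finset ℕ) (hS : ∀ p ∈ S, p.Prime) (K : (p : ℕ) → Finset (ZMod p)) (k : ℕ)
    (hK : ∀ p ∈ S, (K p).card = k) (hkp : ∀ p ∈ S, k ≤ p) (A : ℝ) (hA : 0 ≤ A) (a₁ : ℕ)
    (hlo : A ≤ ∑ p ∈ S, (1 : ℝ) / p) (hhi : ∑ p ∈ S, (1 : ℝ) / p ≤ a₁)
    (a b : ℤ) (hab : a ≤ b) :
    (((Ico a b).filter (fun t : ℤ => ∀ p ∈ S, (t : ZMod p) ∉ K p)).card : ℝ)
      ≤ ((b - a : ℤ) : ℝ) * (2 * Real.exp (-((k : ℝ) * A)))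
        + (1 + (k : ℝ) * S.card) ^ (8 * k * a₁) := by
  have hJe : Even (8 * k * a₁) := by
    refine Even.mul_right (Even.mul_right ?_ k) a₁
    exact ⟨4, rfl⟩
  have h1 := sieve_upper S hS K k hK a b hab (8 * k * a₁) hJe
  have hk0 : (0 : ℝ) ≤ k := Nat.cast_nonneg k
  have hsum : ∑ p ∈ S, (k : ℝ) / p = (k : ℝ) * ∑ p ∈ S, (1 : ℝ) / p := by
    rw [Finset.mul_sum]
    refine Finset.sum_congr rfl fun p _ => ?_
    ring
  have h2 : truncSum S (fun p => (k : ℝ) / p) (8 * k * a₁) ≤ 2 * Real.exp (-((k : ℝ) * A)) := by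
    refine truncSum_le_exp S _ (fun p _ => by positivity) ?_ ((k : ℝ) * A) ((k : ℝ) * a₁)
      (by positivity) ?_ ?_ _ hJe ?_
    · intro p hp
      have hp0 : (0 : ℝ) < p := by exact_mod_cast (hS p hp).pos
      rw [div_le_one hp0]
      exact_mod_cast hkp p hp
    · rw [hsum]
      exact mul_le_mul_of_nonneg_left hlo hk0
    · rw [hsum]
      exact mul_le_mul_of_nonneg_left hhi hk0
    · push_cast
      linarith
  have h3 := truncSum_neg_le S (k : ℝ) hk0 (8 * k * a₁)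
  have hba : (0 : ℝ) ≤ ((b - a : ℤ) : ℝ) := by
    have : 0 ≤ b - a := by omega
    exact_mod_cast this
  have h4 := mul_le_mul_of_nonneg_left h2 hba
  linarith

end Vale.Agent.Lib.P015
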