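import Mathlib

/-!
Truncated alternating elementary symmetric sums (Bonferroni inequalities), used for a
Brun type pure sieve.
-/

namespace Vale.Agent.Lib.P015

open Finset

set_option linter.unusedSectionVars false

variable {ι : Type*} [DecidableEq ι]

/-- The truncated alternating sum over subsets of size at most `J`. -/
noncomputable def truncSum (S : Finset ι) (a : ι → ℝ) (J : ℕ) : ℝ :=
  ∑ Q ∈ S.powerset, if Q.card ≤ J then (-1 : ℝ) ^ Q.card * ∏ p ∈ Q, a p else 0

/-- The elementary symmetric sum of degree `m`. -/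
noncomputable def esum (S : Finset ι) (a : ι → ℝ) (m : ℕ) : ℝ :=
  ∑ Q ∈ S.powerset, if Q.card = m then ∏ p ∈ Q, a p else 0

lemma truncSum_empty (a : ι → ℝ) (J : ℕ) : truncSum (∅ : Finset ι) a J = 1 := by
  simp [truncSum]

lemma truncSum_zero (S : Finset ι) (a : ι → ℝ) : truncSum S a 0 = 1 := by
  unfold truncSum
  rw [Finset.sum_eq_single (∅ : Finset ι)]
  · simp
  · intro Q _ hQ
    have : Q.card ≠ 0 := by simpa [Finset.card_eq_zero] using hQ
    simp [this]
  · simp

lemma truncSum_insert (S : Finset ι) (a : ι → ℝ) (q : ι) (hq : q ∉ S) (J : ℕ) :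
    truncSum (insert q S) a (J + 1) = truncSum S a (J + 1) - a q * truncSum S a J := by
  unfold truncSum
  rw [Finset.sum_powerset_insert hq, sub_eq_add_neg, Finset.mul_sum, ← Finset.sum_neg_distrib]
  congr 1
  refine Finset.sum_congr rfl fun Q hQ => ?_
  have hqQ : q ∉ Q := fun h => hq (Finset.mem_powerset.mp hQ h)
  rw [Finset.card_insert_of_notMem hqQ, Finset.prod_insert hqQ]
  by_cases h : Q.card ≤ J
  · rw [if_pos (by omega), if_pos h]; ring
  · rw [if_neg (by omega), if_neg h]; simp

lemma truncSum_succ (S : Finset ι) (a : ι → ℝ) (J : ℕ) :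
    truncSum S a (J + 1) = truncSum S a J + (-1 : ℝ) ^ (J + 1) * esum S a (J + 1) := by
  unfold truncSum esum
  rw [Finset.mul_sum, ← Finset.sum_add_distrib]
  refine Finset.sum_congr rfl fun Q _ => ?_
  by_cases h : Q.card ≤ J
  · rw [if_pos (by omega), if_pos h, if_neg (by omega)]; simp
  · by_cases h2 : Q.card = J + 1
    · rw [if_pos (by omega), if_neg h, if_pos h2, h2]; simp
    · rw [if_neg (by omega), if_neg h, if_neg h2]; simp

lemma esum_empty_zero (a : ι → ℝ) : esum (∅ : Finset ι) a 0 = 1 := by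
  simp [esum]

lemma esum_empty_succ (a : ι → ℝ) (m : ℕ) : esum (∅ : Finset ι) a (m + 1) = 0 := by
  simp [esum]

lemma esum_insert (S : Finset ι) (a : ι → ℝ) (q : ι) (hq : q ∉ S) (m : ℕ) :
    esum (insert q S) a (m + 1) = esum S a (m + 1) + a q * esum S a m := by
  unfold esum
  rw [Finset.sum_powerset_insert hq, Finset.mul_sum]
  congr 1
  refine Finset.sum_congr rfl fun Q hQ => ?_
  have hqQ : q ∉ Q := fun h => hq (Finset.mem_powerset.mp hQ h)
  rw [Finset.card_insert_of_notMem hqQ, Finset.prod_insert hqQ]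
  by_cases h : Q.card = m
  · rw [if_pos (by omega), if_pos h]
  · rw [if_neg (by omega), if_neg h]; simp

lemma esum_insert_zero (S : Finset ι) (a : ι → ℝ) : esum S a 0 = 1 := by
  unfold esum
  rw [Finset.sum_eq_single (∅ : Finset ι)]
  · simp
  · intro Q _ hQ
    have : Q.card ≠ 0 := by simpa [Finset.card_eq_zero] using hQ
    simp [this]
  · simp

lemma add_pow_ge (s x : ℝ) (hs : 0 ≤ s) (hx : 0 ≤ x) (m : ℕ) :
    s ^ (m + 1) + (m + 1) * x * s ^ m ≤ (s + x) ^ (m + 1) := by
  induction m with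
  | zero => simp
  | succ m ih =>
    have h1 : 0 ≤ s + x := by positivity
    calc s ^ (m + 1 + 1) + ((m + 1 : ℕ) + 1) * x * s ^ (m + 1)
        ≤ (s + x) * (s ^ (m + 1) + (m + 1) * x * s ^ m) := by
          have h2 : 0 ≤ (m + 1) * x * x * s ^ m := by positivity
          have h3 : (s + x) * (s ^ (m + 1) + (m + 1) * x * s ^ m)
              - (s ^ (m + 1 + 1) + ((m + 1 : ℕ) + 1) * x * s ^ (m + 1))
              = (m + 1) * x * x * s ^ m := by push_cast; ring
          linarith
      _ ≤ (s + x) * (s + x) ^ (m + 1) := mul_le_mul_of_nonneg_left ih h1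
      _ = (s + x) ^ (m + 1 + 1) := by ring

/-- The elementary symmetric sum is at most the power of the sum over the factorial. -/
lemma esum_le (S : Finset ι) (a : ι → ℝ) (ha : ∀ p ∈ S, 0 ≤ a p) (m : ℕ) :
    esum S a m ≤ (∑ p ∈ S, a p) ^ m / (m.factorial : ℝ) := by
  induction S using Finset.induction_on generalizing m with
  | empty =>
    cases m with
    | zero => simp [esum_empty_zero]
    | succ m => simp [esum_empty_succ]
  | insert q S hq ih =>
    have ha' : ∀ p ∈ S, 0 ≤ a p := fun p hp => ha p (Finset.mem_insert_of_mem hp)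
    have haq : 0 ≤ a q := ha q (Finset.mem_insert_self _ _)
    have hs : 0 ≤ ∑ p ∈ S, a p := Finset.sum_nonneg ha'
    rw [Finset.sum_insert hq]
    cases m with
    | zero => simp [esum_insert_zero]
    | succ m =>
      rw [esum_insert S a q hq m]
      have h1 := ih ha' (m + 1)
      have h2 := ih ha' m
      set s := ∑ p ∈ S, a p with hsdef
      have hf : (0 : ℝ) < (m.factorial : ℝ) := by exact_mod_cast Nat.factorial_pos m
      have hf2 : ((m + 1).factorial : ℝ) = (m + 1) * (m.factorial : ℝ) := by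
        rw [Nat.factorial_succ]; push_cast; ring
      have h3 := add_pow_ge s (a q) hs haq m
      have h4 : (a q + s) ^ (m + 1) = (s + a q) ^ (m + 1) := by rw [add_comm]
      rw [h4, hf2]
      have hm : (0 : ℝ) < (m : ℝ) + 1 := by positivity
      calc esum S a (m + 1) + a q * esum S a m
          ≤ s ^ (m + 1) / ((m.factorial : ℝ) * 0 + ((m + 1).factorial : ℝ))
            + a q * (s ^ m / (m.factorial : ℝ)) := by
            refine add_le_add ?_ (mul_le_mul_of_nonneg_left h2 haq)
            simpa using h1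
        _ = (s ^ (m + 1) + (m + 1) * a q * s ^ m) / (((m : ℝ) + 1) * (m.factorial : ℝ)) := by
            rw [hf2]; field_simp; ring
        _ ≤ (s + a q) ^ (m + 1) / (((m : ℝ) + 1) * (m.factorial : ℝ)) := by
            apply div_le_div_of_nonneg_right h3 (by positivity)

/-- Bonferroni inequalities for weights in `[0,1]`. -/
lemma trunc_bounds (S : Finset ι) (a : ι → ℝ) (h0 : ∀ p ∈ S, 0 ≤ a p) (h1 : ∀ p ∈ S, a p ≤ 1) :
    ∀ J : ℕ, (Even J → ∏ p ∈ S, (1 - a p) ≤ truncSum S a J) ∧
      (Odd J → truncSum S a J ≤ ∏ p ∈ S, (1 - a p)) := by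
  induction S using Finset.induction_on with
  | empty =>
    intro J
    simp [truncSum_empty]
  | insert q S hq ih =>
    have h0' : ∀ p ∈ S, 0 ≤ a p := fun p hp => h0 p (Finset.mem_insert_of_mem hp)
    have h1' : ∀ p ∈ S, a p ≤ 1 := fun p hp => h1 p (Finset.mem_insert_of_mem hp)
    have haq : 0 ≤ a q := h0 q (Finset.mem_insert_self _ _)
    have haq1 : a q ≤ 1 := h1 q (Finset.mem_insert_self _ _)
    have ih' := ih h0' h1'
    intro J
    rw [Finset.prod_insert hq]
    cases J with
    | zero =>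
      refine ⟨fun _ => ?_, fun h => by simp at h⟩
      rw [truncSum_zero]
      have : ∏ p ∈ S, (1 - a p) ≤ 1 :=
        Finset.prod_le_one (fun p hp => by linarith [h1' p hp]) (fun p hp => by linarith [h0' p hp])
      have h2 : 0 ≤ ∏ p ∈ S, (1 - a p) :=
        Finset.prod_nonneg (fun p hp => by linarith [h1' p hp])
      nlinarith
    | succ J =>
      rw [truncSum_insert S a q hq J]
      set P := ∏ p ∈ S, (1 - a p) with hP
      refine ⟨fun he => ?_, fun ho => ?_⟩
      · have hJ : Odd J := by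
          rcases Nat.even_or_odd J with h | h
          · exact absurd he (by simpa [Nat.even_add_one] using h)
          · exact h
        have h3 := (ih' (J + 1)).1 he
        have h4 := (ih' J).2 hJ
        nlinarith [mul_le_mul_of_nonneg_left h4 haq]
      · have hJ : Even J := by
          rcases Nat.even_or_odd J with h | h
          · exact h
          · exact absurd ho (by simpa [Nat.odd_add_one] using h)
        have h3 := (ih' (J + 1)).2 ho
        have h4 := (ih' J).1 hJ
        nlinarith [mul_le_mul_of_nonneg_left h4 haq]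

/-- The sum over small subsets of `k ^ card`. -/
lemma truncSum_neg_le (S : Finset ι) (k : ℝ) (hk : 0 ≤ k) (J : ℕ) :
    truncSum S (fun _ => -k) J ≤ (1 + k * S.card) ^ J := by
  induction S using Finset.induction_on generalizing J with
  | empty => simp [truncSum_empty]
  | insert q S hq ih =>
    cases J with
    | zero => simp [truncSum_zero]
    | succ J =>
      rw [truncSum_insert S _ q hq J, Finset.card_insert_of_notMem hq]
      have h1 := ih (J + 1)
      have h2 := ih J
      have hn : (0 : ℝ) ≤ S.card := by positivity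
      have hb : 0 ≤ 1 + k * S.card := by positivity
      have hb2 : 1 + k * S.card ≤ 1 + k * ((S.card + 1 : ℕ) : ℝ) := by
        push_cast; nlinarith
      calc truncSum S (fun _ => -k) (J + 1) - -k * truncSum S (fun _ => -k) J
          ≤ (1 + k * S.card) ^ (J + 1) + k * (1 + k * S.card) ^ J := by
            have := mul_le_mul_of_nonneg_left h2 hk
            linarith
        _ = (1 + k * S.card + k) * (1 + k * S.card) ^ J := by ring
        _ = (1 + k * ((S.card + 1 : ℕ) : ℝ)) * (1 + k * S.card) ^ J := by push_cast; ring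
        _ ≤ (1 + k * ((S.card + 1 : ℕ) : ℝ)) * (1 + k * ((S.card + 1 : ℕ) : ℝ)) ^ J := by
            apply mul_le_mul_of_nonneg_left (pow_le_pow_left₀ hb hb2 J)
            positivity
        _ = (1 + k * ((S.card + 1 : ℕ) : ℝ)) ^ (J + 1) := by ring

lemma truncSum_neg_eq (S : Finset ι) (k : ℝ) (J : ℕ) :
    truncSum S (fun _ => -k) J = ∑ Q ∈ S.powerset, if Q.card ≤ J then k ^ Q.card else 0 := by
  unfold truncSum
  refine Finset.sum_congr rfl fun Q _ => ?_
  split_ifs
  · rw [Finset.prod_const, ← mul_pow]; simp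
  · rfl

/-- Numerical estimate for the truncated sum with weights of total mass about `lam`. -/
lemma truncSum_le_exp (S : Finset ι) (a : ι → ℝ) (h0 : ∀ p ∈ S, 0 ≤ a p) (h1 : ∀ p ∈ S, a p ≤ 1)
    (B B' : ℝ) (hB : 0 ≤ B) (hlo : B ≤ ∑ p ∈ S, a p) (hhi : ∑ p ∈ S, a p ≤ B') (J : ℕ)
    (hJe : Even J) (hJ : 8 * B' ≤ J) :
    truncSum S a J ≤ 2 * Real.exp (-B) := by
  have hJ1 := (trunc_bounds S a h0 h1 (J + 1)).2 hJe.add_one
  rw [truncSum_succ] at hJ1
  have hsign : (-1 : ℝ) ^ (J + 1) = -1 := hJe.add_one.neg_one_pow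
  rw [hsign] at hJ1
  have hE := esum_le S a h0 (J + 1)
  have hprod : ∏ p ∈ S, (1 - a p) ≤ Real.exp (-B) := by
    have h2 : ∏ p ∈ S, (1 - a p) ≤ ∏ p ∈ S, Real.exp (-a p) :=
      Finset.prod_le_prod (fun p hp => by linarith [h1 p hp])
        (fun p _ => by linarith [Real.add_one_le_exp (-a p)])
    rw [← Real.exp_sum, Finset.sum_neg_distrib] at h2
    exact h2.trans (Real.exp_le_exp.mpr (by linarith))
  set s := ∑ p ∈ S, a p with hs
  have hs0 : 0 ≤ s := Finset.sum_nonneg h0
  have hB'0 : 0 ≤ B' := hs0.trans hhi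
  -- the factorial term
  set m : ℕ := J + 1 with hm
  have hm0 : (0 : ℝ) < m := by rw [hm]; positivity
  have hx : (0 : ℝ) ≤ (m : ℝ) / 4 := by positivity
  have hfac := Real.pow_div_factorial_le_exp _ hx m
  have hmJ : (m : ℝ) = J + 1 := by rw [hm]; push_cast; ring
  have hE2 : s ^ m / (m.factorial : ℝ) ≤ Real.exp (-B) := by
    have hratio : s ≤ (1 / 2) * ((m : ℝ) / 4) := by
      have : 8 * s ≤ J := (mul_le_mul_of_nonneg_left hhi (by norm_num)).trans hJ
      rw [hmJ]; nlinarith
    have hf : (0 : ℝ) < (m.factorial : ℝ) := by exact_mod_cast Nat.factorial_pos m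
    have h3 : s ^ m ≤ (1 / 2) ^ m * ((m : ℝ) / 4) ^ m := by
      rw [← mul_pow]; exact pow_le_pow_left₀ hs0 hratio m
    have h4 : s ^ m / (m.factorial : ℝ) ≤ (1 / 2) ^ m * (((m : ℝ) / 4) ^ m / (m.factorial : ℝ)) := by
      rw [← mul_div_assoc]; exact div_le_div_of_nonneg_right h3 hf.le
    have h5 : ((1 : ℝ) / 2) ^ m * (((m : ℝ) / 4) ^ m / (m.factorial : ℝ))
        ≤ (1 / 2) ^ m * Real.exp ((m : ℝ) / 4) :=
      mul_le_mul_of_nonneg_left hfac (by positivity)
    have h6 : ((1 : ℝ) / 2) ^ m * Real.exp ((m : ℝ) / 4) ≤ Real.exp (-(m : ℝ) / 8) := by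
      have h7 : ((1 : ℝ) / 2) ≤ Real.exp (-(3 / 8)) := by
        have hl : (3 : ℝ) / 8 ≤ Real.log 2 := by
          have := Real.log_two_gt_d9; norm_num at this ⊢; linarith
        have : Real.exp (-(Real.log 2)) ≤ Real.exp (-(3 / 8)) := Real.exp_le_exp.mpr (by linarith)
        rwa [Real.exp_neg, Real.exp_log (by norm_num), show ((2 : ℝ)⁻¹) = 1 / 2 by norm_num] at this
      have h8 : ((1 : ℝ) / 2) ^ m ≤ Real.exp (-(3 / 8)) ^ m :=
        pow_le_pow_left₀ (by norm_num) h7 m
      rw [← Real.exp_nat_mul] at h8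
      calc ((1 : ℝ) / 2) ^ m * Real.exp ((m : ℝ) / 4)
          ≤ Real.exp ((m : ℝ) * -(3 / 8)) * Real.exp ((m : ℝ) / 4) :=
            mul_le_mul_of_nonneg_right h8 (Real.exp_pos _).le
        _ = Real.exp (-(m : ℝ) / 8) := by
            rw [← Real.exp_add]; congr 1; ring
    have h9 : Real.exp (-(m : ℝ) / 8) ≤ Real.exp (-B) := by
      apply Real.exp_le_exp.mpr
      have : B ≤ B' := hlo.trans hhi
      rw [hmJ]; nlinarith
    linarith
  have : truncSum S a J ≤ ∏ p ∈ S, (1 - a p) + esum S a m := by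
    rw [hm]; linarith
  linarith [hE.trans hE2]

end Vale.Agent.Lib.P015
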