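import Vale.Agent.Lib.P015.Width

/-!
The width theorem in real form: tubes of radius `exp (c log r / log log r)`.
-/

namespace Vale.Agent.Lib.P015

open Finset

lemma log_sixteen_ge : Real.exp 1 ≤ Real.log 16 := by
  have h1 : Real.log 16 = 4 * Real.log 2 := by
    rw [show (16 : ℝ) = 2 ^ 4 by norm_num, Real.log_pow]; norm_num
  have h2 := Real.exp_one_lt_d9
  have h3 := Real.log_two_gt_d9
  rw [h1]
  linarith

lemma psi_mono {s t : ℝ} (hs : 16 ≤ s) (hst : s ≤ t) : psi s ≤ psi t := by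
  have hs0 : 0 < s := by linarith
  have hu : Real.exp 1 ≤ Real.log s :=
    log_sixteen_ge.trans (Real.log_le_log (by norm_num) hs)
  have huv : Real.log s ≤ Real.log t := Real.log_le_log hs0 hst
  have hv : Real.exp 1 ≤ Real.log t := hu.trans huv
  have h := Real.log_div_self_antitoneOn hu hv huv
  have hu0 : 0 < Real.log s := lt_of_lt_of_le (Real.exp_pos 1) hu
  have hv0 : 0 < Real.log t := lt_of_lt_of_le (Real.exp_pos 1) hv
  have hlu : 0 < Real.log (Real.log s) := by
    apply Real.log_pos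
    have := Real.add_one_le_exp (1 : ℝ)
    linarith
  have hlv : 0 < Real.log (Real.log t) := by
    apply Real.log_pos
    have := Real.add_one_le_exp (1 : ℝ)
    linarith
  unfold psi
  have h' : Real.log (Real.log t) / Real.log t ≤ Real.log (Real.log s) / Real.log s := h
  rw [div_le_div_iff₀ hv0 hu0] at h'
  rw [div_le_div_iff₀ hlu hlv]
  linarith

lemma psi_sq_le {u : ℝ} (hu : 16 ≤ u) : psi (u ^ 2) ≤ 2 * psi u := by
  have hu0 : 0 < u := by linarith
  have hlog : Real.exp 1 ≤ Real.log u :=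
    log_sixteen_ge.trans (Real.log_le_log (by norm_num) hu)
  have hl0 : 0 < Real.log u := lt_of_lt_of_le (Real.exp_pos 1) hlog
  have hll : 0 < Real.log (Real.log u) := by
    apply Real.log_pos
    have := Real.add_one_le_exp (1 : ℝ)
    linarith
  unfold psi
  rw [Real.log_pow]
  push_cast
  have h2 : Real.log (Real.log u) ≤ Real.log (2 * Real.log u) :=
    Real.log_le_log hl0 (by linarith)
  have h3 : 2 * Real.log u / Real.log (2 * Real.log u) ≤ 2 * Real.log u / Real.log (Real.log u) :=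
    div_le_div_of_nonneg_left (by positivity) hll h2
  calc 2 * Real.log u / Real.log (2 * Real.log u)
      ≤ 2 * Real.log u / Real.log (Real.log u) := h3
    _ = 2 * (Real.log u / Real.log (Real.log u)) := by ring

/-- Real form of the width theorem: a path in a strip of half width
`exp (c log r / log log r)` has diameter less than `r`. -/
theorem tube_diam (D : ℝ) (hD : 0 < D) : ∃ c : ℝ, 0 < c ∧ ∃ r₀ : ℝ, 16 ≤ r₀ ∧ ∀ r, r₀ ≤ r →
    ∀ (n : ℕ) (γ : ℕ → GaussianInt), IsPrimePath D n γ → ∀ α β c₀ : ℝ, α ^ 2 + β ^ 2 = 1 →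
    (∀ i < n, |α * ((γ i).re : ℝ) + β * ((γ i).im : ℝ) - c₀| ≤ Real.exp (c * psi r)) →
    ∀ i < n, ∀ j < n, gdist (γ i) (γ j) < r := by
  obtain ⟨C, k₀, hmain⟩ := width_bound D hD
  set c' : ℝ := 1 / (2 * ((C : ℝ) + 1)) with hc'
  have hC0 : (0 : ℝ) ≤ C := Nat.cast_nonneg C
  have hc'0 : 0 < c' := by positivity
  have hlog2 : 0 < Real.log 2 := Real.log_pos (by norm_num)
  refine ⟨c' * Real.log 2, by positivity, ?_⟩
  set B : ℝ := 2 * (2 + (k₀ : ℝ)) / c' with hB
  have hB0 : 0 ≤ B := by positivity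
  have hexp3 : (16 : ℝ) ≤ Real.exp 3 := by
    have h1 : Real.exp 3 = Real.exp 1 ^ 3 := by
      rw [← Real.exp_nat_mul]; norm_num
    have h2 := Real.exp_one_gt_d9
    rw [h1]
    have h3 : (2.7 : ℝ) ≤ Real.exp 1 := by linarith
    have h4 : (2.7 : ℝ) ^ 3 ≤ Real.exp 1 ^ 3 := pow_le_pow_left₀ (by norm_num) h3 3
    norm_num at h4 ⊢
    linarith
  refine ⟨Real.exp (B ^ 2 + 3), ?_, ?_⟩
  · refine hexp3.trans (Real.exp_le_exp.mpr ?_)
    nlinarith [sq_nonneg B]
  intro r hr n γ hγ α β c₀ hαβ hstrip i hi j hj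
  have hrpos : 0 < r := lt_of_lt_of_le (Real.exp_pos _) hr
  set x := Real.log r with hx
  have hxB : B ^ 2 + 3 ≤ x := by
    have := Real.log_le_log (Real.exp_pos _) hr
    rwa [Real.log_exp] at this
  have hx3 : 3 ≤ x := by nlinarith [sq_nonneg B]
  have hx0 : 0 < x := by linarith
  set y := Real.log x with hy
  have hy1 : 1 ≤ y := by
    have h1 : Real.log (Real.exp 1) ≤ Real.log x := by
      apply Real.log_le_log (Real.exp_pos _)
      have := Real.exp_one_lt_d9
      linarith
    rwa [Real.log_exp] at h1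
  have hy0 : 0 < y := by linarith
  -- x / y is large
  have hxy : B ≤ 2 * (x / y) := by
    have h1 : y ≤ 2 * Real.sqrt x := by
      have h2 : Real.log (Real.sqrt x) ≤ Real.sqrt x - 1 :=
        Real.log_le_sub_one_of_pos (Real.sqrt_pos.mpr hx0)
      rw [Real.log_sqrt hx0.le] at h2
      linarith
    have h3 : Real.sqrt x * Real.sqrt x = x := Real.mul_self_sqrt hx0.le
    have h4 : B ≤ Real.sqrt x := by
      apply Real.le_sqrt_of_sq_le
      linarith
    have hsq : 0 < Real.sqrt x := Real.sqrt_pos.mpr hx0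
    have h5 : Real.sqrt x / 2 ≤ x / y := by
      rw [le_div_iff₀ hy0]
      nlinarith
    linarith
  set u := c' * (x / y) with hu
  have hu2 : 2 + (k₀ : ℝ) ≤ u := by
    have h1 : 2 * (2 + (k₀ : ℝ)) / c' ≤ 2 * (x / y) := hxy
    rw [div_le_iff₀ hc'0] at h1
    rw [hu]
    nlinarith
  set k : ℕ := ⌈u⌉₊ + 1 + k₀ with hk
  have hku : (k : ℝ) ≤ 2 * u := by
    have h1 : (⌈u⌉₊ : ℝ) < u + 1 := Nat.ceil_lt_add_one (by linarith [Nat.cast_nonneg (α := ℝ) k₀])
    rw [hk]
    push_cast
    linarith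
  have hk1 : (1 : ℝ) ≤ k := by
    rw [hk]; push_cast
    have h1 : (0 : ℝ) ≤ (⌈u⌉₊ : ℝ) := Nat.cast_nonneg _
    have h2 : (0 : ℝ) ≤ (k₀ : ℝ) := Nat.cast_nonneg _
    linarith
  have hk0 : (0 : ℝ) < k := by linarith
  -- the strip condition
  have hW : Real.exp (c' * Real.log 2 * psi r) ≤ (2 : ℝ) ^ k / 2 := by
    have h1 : c' * Real.log 2 * psi r = u * Real.log 2 := by
      rw [hu]
      unfold psi
      rw [← hx, ← hy]
      ring
    rw [h1]
    have h2 : (2 : ℝ) ^ k / 2 = Real.exp (((k - 1 : ℕ) : ℝ) * Real.log 2) := by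
      rw [Real.exp_nat_mul, Real.exp_log (by norm_num)]
      have hk' : k = (k - 1) + 1 := by
        have : 1 ≤ k := by omega
        omega
      conv_lhs => rw [hk', pow_succ]
      field_simp
    rw [h2]
    apply Real.exp_le_exp.mpr
    apply mul_le_mul_of_nonneg_right _ hlog2.le
    have h3 : ((k - 1 : ℕ) : ℝ) = (⌈u⌉₊ : ℝ) + k₀ := by
      have : k - 1 = ⌈u⌉₊ + k₀ := by omega
      rw [this]; push_cast; ring
    rw [h3]
    have h4 := Nat.le_ceil u
    have h5 : (0 : ℝ) ≤ (k₀ : ℝ) := Nat.cast_nonneg _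
    linarith
  have hres := hmain k (by omega) n γ hγ α β c₀ hαβ
    (fun t ht => (hstrip t ht).trans hW) i hi j hj
  refine lt_of_lt_of_le hres ?_
  -- the size of k ^ (C k)
  have hlogk : Real.log k ≤ y := by
    rw [hy]
    apply Real.log_le_log hk0
    have h1 : c' ≤ 1 / 2 := by
      rw [hc']
      apply one_div_le_one_div_of_le (by norm_num)
      linarith
    have h2 : 0 < x / y := by positivity
    have h3 : x / y ≤ x := div_le_self hx0.le hy1
    calc (k : ℝ) ≤ 2 * u := hku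
      _ = 2 * c' * (x / y) := by rw [hu]; ring
      _ ≤ 2 * (1 / 2) * (x / y) := by
          apply mul_le_mul_of_nonneg_right _ h2.le
          linarith
      _ = x / y := by ring
      _ ≤ x := h3
  have hlogk0 : 0 ≤ Real.log k := Real.log_nonneg hk1
  have hfinal : ((C * k : ℕ) : ℝ) * Real.log k ≤ x := by
    push_cast
    have h1 : (C : ℝ) * k * Real.log k ≤ C * (2 * u) * y := by
      apply mul_le_mul _ hlogk hlogk0 (by positivity)
      exact mul_le_mul_of_nonneg_left hku hC0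
    have h2 : (C : ℝ) * (2 * u) * y = C * (2 * c') * x := by
      rw [hu]
      field_simp
    have h3 : (C : ℝ) * (2 * c') ≤ 1 := by
      rw [hc']
      field_simp
      linarith
    nlinarith
  have h6 : (k : ℝ) ^ (C * k) = Real.exp (((C * k : ℕ) : ℝ) * Real.log k) := by
    rw [Real.exp_nat_mul, Real.exp_log hk0]
  rw [h6]
  calc Real.exp (((C * k : ℕ) : ℝ) * Real.log k) ≤ Real.exp x := Real.exp_le_exp.mpr hfinal
    _ = r := by rw [hx, Real.exp_log hrpos]

lemma psi_nonneg {r : ℝ} (hr : 16 ≤ r) : 0 ≤ psi r := by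
  have hr0 : 0 < r := by linarith
  have hlog : Real.exp 1 ≤ Real.log r :=
    log_sixteen_ge.trans (Real.log_le_log (by norm_num) hr)
  have hl0 : 0 < Real.log r := lt_of_lt_of_le (Real.exp_pos 1) hlog
  have hll : 0 < Real.log (Real.log r) := by
    apply Real.log_pos
    have := Real.add_one_le_exp (1 : ℝ)
    linarith
  unfold psi
  positivity

lemma gdist_triangle (z v w : GaussianInt) : gdist z w ≤ gdist z v + gdist v w := by
  have h : ∀ a b : GaussianInt, gdist a b = dist (⟨a.re, a.im⟩ : ℂ) (⟨b.re, b.im⟩ : ℂ) := by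
    intro a b
    rw [Complex.dist_eq_re_im]
    rfl
  rw [h z w, h z v, h v w]
  exact dist_triangle _ _ _

/-- An injective sequence of Gaussian integers is unbounded. -/
lemma exists_large (γ : ℕ → GaussianInt) (hinj : Function.Injective γ) (R : ℝ) :
    ∃ t, R ≤ gdist (γ t) 0 := by
  by_contra hcon
  push Not at hcon
  let B : ℤ := ⌈R⌉
  have hmem : ∀ t, γ t ∈ ((Finset.Icc (-B) B ×ˢ Finset.Icc (-B) B).image
      (fun x : ℤ × ℤ => (⟨x.1, x.2⟩ : GaussianInt)) : Set GaussianInt) := by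
    intro t
    have h1 := abs_re_le (γ t) 0
    have h2 := abs_im_le (γ t) 0
    have h3 := hcon t
    have hB : R ≤ (B : ℝ) := Int.le_ceil R
    simp only [Zsqrtd.re_zero, Zsqrtd.im_zero, Int.cast_zero, sub_zero] at h1 h2
    have h4 : |(γ t).re| ≤ B := by
      have : (|(γ t).re| : ℝ) ≤ (B : ℝ) := by
        linarith
      exact_mod_cast this
    have h5 : |(γ t).im| ≤ B := by
      have : (|(γ t).im| : ℝ) ≤ (B : ℝ) := by
        linarith
      exact_mod_cast this
    rw [abs_le] at h4 h5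
    simp only [Finset.coe_image, Set.mem_image, Finset.mem_coe, Finset.mem_product, Finset.mem_Icc]
    exact ⟨((γ t).re, (γ t).im), ⟨h4, h5⟩, rfl⟩
  exact Set.infinite_of_injective_forall_mem hinj hmem (Finset.finite_toSet _)

/-- The main theorem. -/
theorem main_result (D : ℝ) (hD : 0 < D) : ∃ c : ℝ, 0 < c ∧
    (∃ L₀ : ℝ, ∀ (n : ℕ) (γ : ℕ → GaussianInt), IsPrimePath D n γ →
      ∀ α β : ℝ, α ^ 2 + β ^ 2 = 1 → ∀ i < n, ∀ j < n, L₀ ≤ gdist (γ i) (γ j) →
      ∃ a < n, ∃ b < n, Real.exp (c * psi (gdist (γ i) (γ j)))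
        ≤ |α * (((γ a).re : ℝ) - ((γ b).re : ℝ)) + β * (((γ a).im : ℝ) - ((γ b).im : ℝ))|) ∧
    (∀ γ : ℕ → GaussianInt, (∀ n, Irreducible (γ n)) → Function.Injective γ →
      (∀ n, gdist (γ n) (γ (n + 1)) ≤ D) → ∀ α β c₀ : ℝ, α ^ 2 + β ^ 2 = 1 →
      ∀ N, ∃ n, N ≤ n ∧ Real.exp (c * psi (gdist (γ n) 0 + 16))
        < |α * ((γ n).re : ℝ) + β * ((γ n).im : ℝ) - c₀|) := by
  obtain ⟨c₁, hc₁, r₀, hr₀, htube⟩ := tube_diam D hD
  refine ⟨c₁ / 2, by positivity, ⟨r₀, ?_⟩, ?_⟩
  · intro n γ hγ α β hαβ i hi j hj hL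
    by_contra hcon
    push Not at hcon
    have hL16 : 16 ≤ gdist (γ i) (γ j) := hr₀.trans hL
    have hψ := psi_nonneg hL16
    have hres := htube _ hL n γ hγ α β
      (α * ((γ i).re : ℝ) + β * ((γ i).im : ℝ)) hαβ
      (fun t ht => by
        have h1 := hcon t ht i hi
        have h2 : α * ((γ t).re : ℝ) + β * ((γ t).im : ℝ) - (α * ((γ i).re : ℝ) + β * ((γ i).im : ℝ))
            = α * (((γ t).re : ℝ) - ((γ i).re : ℝ)) + β * (((γ t).im : ℝ) - ((γ i).im : ℝ)) := by
          ring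
        rw [h2]
        refine h1.le.trans (Real.exp_le_exp.mpr ?_)
        nlinarith) i hi j hj
    exact lt_irrefl _ hres
  · intro γ hpr hinj hstep α β c₀ hαβ N
    by_contra hcon
    push Not at hcon
    let δ : ℕ → GaussianInt := fun t => γ (N + t)
    have hδinj : Function.Injective δ := fun a b h => by
      have := hinj h
      omega
    have hr16 : ∀ t, 16 ≤ gdist (δ t) 0 + 16 := fun t => by
      linarith [gdist_nonneg (δ t) 0]
    set r0 := gdist (δ 0) 0 + 16 with hr0def
    have hr016 : 16 ≤ r0 := hr16 0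
    set R : ℝ := 2 * r₀ + 2 * r0 + D + 1 with hR
    obtain ⟨t', ht'⟩ := exists_large δ hδinj R
    classical
    have hex : ∃ t, R ≤ gdist (δ t) 0 + 16 := ⟨t', by linarith⟩
    set t₁ := Nat.find hex with ht₁
    have hspec : R ≤ gdist (δ t₁) 0 + 16 := Nat.find_spec hex
    have hmin : ∀ t, t < t₁ → gdist (δ t) 0 + 16 < R := fun t ht => by
      have := Nat.find_min hex ht
      linarith
    have ht₁0 : t₁ ≠ 0 := by
      intro h0
      rw [h0] at hspec
      have : R ≤ r0 := hspec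
      linarith
    have hbound : ∀ t, t ≤ t₁ → gdist (δ t) 0 + 16 ≤ R + D := by
      intro t ht
      rcases Nat.lt_or_ge t t₁ with hlt | hge
      · have := hmin t hlt
        linarith
      · have htt : t = t₁ := le_antisymm ht hge
        rw [htt]
        obtain ⟨s, hs⟩ : ∃ s, t₁ = s + 1 := ⟨t₁ - 1, by omega⟩
        rw [hs]
        have h1 := hmin s (by omega)
        have h2 := gdist_triangle (δ (s + 1)) (δ s) 0
        have h3 : gdist (δ (s + 1)) (δ s) ≤ D := by
          rw [gdist_comm]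
          exact hstep (N + s)
        linarith
    have hR32 : 32 ≤ R := by
      have hD0 := hD.le
      rw [hR]
      linarith
    have hRpsi : c₁ / 2 * psi (R + D) ≤ c₁ * psi (R / 2) := by
      have hu : (16 : ℝ) ≤ R / 2 := by linarith
      have h1 : R + D ≤ (R / 2) ^ 2 := by
        have h2 : D ≤ R := by rw [hR]; linarith
        nlinarith
      have h2 := psi_mono (s := R + D) (t := (R / 2) ^ 2) (by linarith) h1
      have h3 := psi_sq_le hu
      have h4 : psi (R + D) ≤ 2 * psi (R / 2) := h2.trans h3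
      nlinarith
    have hres := htube (R / 2) (by rw [hR]; linarith) (t₁ + 1) δ
      ⟨fun t _ => hpr _, fun a _ b _ h => hδinj h, fun t _ => hstep (N + t)⟩ α β c₀ hαβ
      (fun t ht => by
        have h1 := hcon (N + t) (by omega)
        refine h1.trans (Real.exp_le_exp.mpr ?_)
        have h2 := psi_mono (hr16 t) (hbound t (by omega))
        have h3 : c₁ / 2 * psi (gdist (γ (N + t)) 0 + 16) ≤ c₁ / 2 * psi (R + D) :=
          mul_le_mul_of_nonneg_left h2 (by positivity)
        linarith) t₁ (by omega) 0 (by omega)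
    have h5 := gdist_triangle (δ t₁) (δ 0) 0
    have h6 : r0 ≤ R / 2 := by
      rw [hR]
      have hD0 := hD.le
      linarith
    linarith

end Vale.Agent.Lib.P015
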