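import Vale.Agent.Lib.P015.Defs
import Vale.Agent.Lib.P015.Blocks
import Vale.Agent.Lib.P015.Mertens
import Vale.Agent.Lib.P015.Numeric

/-!
A path of Gaussian primes in a thin strip has small diameter.
-/

namespace Vale.Agent.Lib.P015

open Finset

lemma gdist_comm (z w : GaussianInt) : gdist z w = gdist w z := by
  unfold gdist
  congr 1
  ring

lemma gdist_sq (z w : GaussianInt) :
    gdist z w ^ 2 = ((z.re : ℝ) - (w.re : ℝ)) ^ 2 + ((z.im : ℝ) - (w.im : ℝ)) ^ 2 := by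
  unfold gdist
  exact Real.sq_sqrt (by positivity)

lemma gdist_nonneg (z w : GaussianInt) : 0 ≤ gdist z w := Real.sqrt_nonneg _

lemma abs_re_le (z w : GaussianInt) : |(z.re : ℝ) - (w.re : ℝ)| ≤ gdist z w := by
  apply Real.abs_le_sqrt
  nlinarith [sq_nonneg ((z.im : ℝ) - (w.im : ℝ))]

lemma abs_im_le (z w : GaussianInt) : |(z.im : ℝ) - (w.im : ℝ)| ≤ gdist z w := by
  apply Real.abs_le_sqrt
  nlinarith [sq_nonneg ((z.re : ℝ) - (w.re : ℝ))]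

lemma abs_rot_le (α β : ℝ) (hαβ : α ^ 2 + β ^ 2 = 1) (z w : GaussianInt) :
    |β * ((z.re : ℝ) - (w.re : ℝ)) - α * ((z.im : ℝ) - (w.im : ℝ))| ≤ gdist z w := by
  apply Real.abs_le_sqrt
  have h : (β * ((z.re : ℝ) - (w.re : ℝ)) - α * ((z.im : ℝ) - (w.im : ℝ))) ^ 2
      + (α * ((z.re : ℝ) - (w.re : ℝ)) + β * ((z.im : ℝ) - (w.im : ℝ))) ^ 2
      = (α ^ 2 + β ^ 2) * (((z.re : ℝ) - (w.re : ℝ)) ^ 2 + ((z.im : ℝ) - (w.im : ℝ)) ^ 2) := by ring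
  rw [hαβ, one_mul] at h
  nlinarith [sq_nonneg (α * ((z.re : ℝ) - (w.re : ℝ)) + β * ((z.im : ℝ) - (w.im : ℝ)))]

lemma geom_rows (α β : ℝ) (hαβ : α ^ 2 + β ^ 2 = 1) (v₁ v₂ Q H dx dy : ℝ)
    (hg : |α * dx + β * dy| ≤ H) (hh : |β * dx - α * dy| ≤ 2 * Q ^ 2) :
    |v₁ * dy - v₂ * dx| + 1 ≤ |β * v₁ - α * v₂| * H + 2 * |α * v₁ + β * v₂| * Q ^ 2 + 1 := by
  have h1 : v₁ * dy - v₂ * dx
      = (β * v₁ - α * v₂) * (α * dx + β * dy) - (α * v₁ + β * v₂) * (β * dx - α * dy) := by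
    linear_combination (-(v₁ * dy - v₂ * dx)) * hαβ
  rw [h1]
  have h2 : |(β * v₁ - α * v₂) * (α * dx + β * dy) - (α * v₁ + β * v₂) * (β * dx - α * dy)|
      ≤ |β * v₁ - α * v₂| * |α * dx + β * dy| + |α * v₁ + β * v₂| * |β * dx - α * dy| := by
    rw [← abs_mul, ← abs_mul]
    exact abs_sub _ _
  have h3 := mul_le_mul_of_nonneg_left hg (abs_nonneg (β * v₁ - α * v₂))
  have h4 := mul_le_mul_of_nonneg_left hh (abs_nonneg (α * v₁ + β * v₂))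
  linarith

/-- Bounds on the components of the direction vector. -/
lemma geom_bounds (α β : ℝ) (hαβ : α ^ 2 + β ^ 2 = 1) (v₁ v₂ Q : ℝ) (hQ : 1 ≤ Q)
    (hv₁ : |v₁| ≤ Q + 1) (hv₂ : |v₂| ≤ Q + 1) (he : |α * v₁ + β * v₂| ≤ 1 / (Q + 1)) :
    |β * v₁ - α * v₂| ≤ 2 * (Q + 1) ∧ 2 * |α * v₁ + β * v₂| * Q ^ 2 ≤ 2 * Q := by
  have hα : |α| ≤ 1 := by
    rw [abs_le_one_iff_mul_self_le_one]; nlinarith [sq_nonneg β]
  have hβ : |β| ≤ 1 := by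
    rw [abs_le_one_iff_mul_self_le_one]; nlinarith [sq_nonneg α]
  constructor
  · calc |β * v₁ - α * v₂| ≤ |β * v₁| + |α * v₂| := abs_sub _ _
      _ = |β| * |v₁| + |α| * |v₂| := by rw [abs_mul, abs_mul]
      _ ≤ 1 * (Q + 1) + 1 * (Q + 1) := by
          apply add_le_add <;> apply mul_le_mul <;> first | assumption | positivity
      _ = 2 * (Q + 1) := by ring
  · have hQ1 : 0 < Q + 1 := by linarith
    have h1 : |α * v₁ + β * v₂| * (Q + 1) ≤ 1 := by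
      rwa [le_div_iff₀ hQ1] at he
    have h2 : |α * v₁ + β * v₂| * Q ^ 2 ≤ |α * v₁ + β * v₂| * (Q * (Q + 1)) :=
      mul_le_mul_of_nonneg_left (by nlinarith) (abs_nonneg _)
    have h3 : |α * v₁ + β * v₂| * (Q * (Q + 1)) = Q * (|α * v₁ + β * v₂| * (Q + 1)) := by ring
    have h4 : Q * (|α * v₁ + β * v₂| * (Q + 1)) ≤ Q * 1 :=
      mul_le_mul_of_nonneg_left h1 (by linarith)
    linarith

lemma geom_len (α β : ℝ) (hαβ : α ^ 2 + β ^ 2 = 1) (v₁ v₂ : ℤ) (hv : IsCoprime v₁ v₂) (Q H : ℝ)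
    (hQ : 1 ≤ Q) (hH : 1 ≤ H)
    (hv₁ : |(v₁ : ℝ)| ≤ Q + 1) (hv₂ : |(v₂ : ℝ)| ≤ Q + 1)
    (he : |α * v₁ + β * v₂| ≤ 1 / (Q + 1)) (s : ℝ)
    (hg : |s * (α * v₁ + β * v₂)| ≤ H) (hh : |s * (β * v₁ - α * v₂)| ≤ 2 * Q ^ 2) :
    (|s| + 1) * (|β * (v₁ : ℝ) - α * v₂| * H + 2 * |α * (v₁ : ℝ) + β * v₂| * Q ^ 2 + 1)
      ≤ 14 * H * Q ^ 2 := by
  obtain ⟨hf, he2⟩ := geom_bounds α β hαβ v₁ v₂ Q hQ hv₁ hv₂ he
  set E := |α * (v₁ : ℝ) + β * v₂| with hE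
  set F := |β * (v₁ : ℝ) - α * v₂| with hF
  have hE0 : 0 ≤ E := abs_nonneg _
  have hF0 : 0 ≤ F := abs_nonneg _
  rw [abs_mul] at hg hh
  rw [← hE] at hg
  rw [← hF] at hh
  have hs0 : 0 ≤ |s| := abs_nonneg s
  -- the norm of v is at least one
  have hnorm : (1 : ℝ) ≤ (v₁ : ℝ) ^ 2 + (v₂ : ℝ) ^ 2 := by
    have h1 : (1 : ℤ) ≤ v₁ ^ 2 + v₂ ^ 2 := by
      obtain ⟨a, b, hab⟩ := hv
      by_contra hcon
      have h2 : v₁ ^ 2 + v₂ ^ 2 = 0 := by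
        have := sq_nonneg v₁; have := sq_nonneg v₂; omega
      have h3 : v₁ = 0 := by nlinarith [sq_nonneg v₁, sq_nonneg v₂]
      have h4 : v₂ = 0 := by nlinarith [sq_nonneg v₁, sq_nonneg v₂]
      rw [h3, h4] at hab
      simp at hab
    exact_mod_cast h1
  have hEF : E ^ 2 + F ^ 2 = (v₁ : ℝ) ^ 2 + (v₂ : ℝ) ^ 2 := by
    rw [hE, hF, sq_abs, sq_abs]
    linear_combination ((v₁ : ℝ) ^ 2 + (v₂ : ℝ) ^ 2) * hαβ
  have hQ2 : 0 < 2 * Q ^ 2 := by positivity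
  have hs : |s| ≤ H + 2 * Q ^ 2 := by
    have h1 : (|s| * E) ^ 2 ≤ H ^ 2 := pow_le_pow_left₀ (by positivity) hg 2
    have h2 : (|s| * F) ^ 2 ≤ (2 * Q ^ 2) ^ 2 := pow_le_pow_left₀ (by positivity) hh 2
    have h3 : |s| ^ 2 ≤ |s| ^ 2 * (E ^ 2 + F ^ 2) := by
      rw [hEF]
      exact le_mul_of_one_le_right (by positivity) hnorm
    have h4 : |s| ^ 2 ≤ (H + 2 * Q ^ 2) ^ 2 := by
      have h5 : |s| ^ 2 * (E ^ 2 + F ^ 2) = (|s| * E) ^ 2 + (|s| * F) ^ 2 := by ring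
      have h6 : 0 ≤ H * (2 * Q ^ 2) := by positivity
      nlinarith
    exact abs_le_of_sq_le_sq' h4 (by positivity) |>.2
  have hHQ : H ≤ H * Q ^ 2 := le_mul_of_one_le_right (by linarith) (one_le_pow₀ hQ)
  have hQQ : Q ≤ Q ^ 2 := by nlinarith
  have hQ2H : Q ^ 2 ≤ H * Q ^ 2 := le_mul_of_one_le_left (by positivity) hH
  have hQH : Q * H ≤ H * Q ^ 2 := by nlinarith
  have h1 : |s| * F * H ≤ 2 * Q ^ 2 * H := mul_le_mul_of_nonneg_right hh (by linarith)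
  have h2 : |s| * E * (2 * Q ^ 2) ≤ H * (2 * Q ^ 2) := mul_le_mul_of_nonneg_right hg hQ2.le
  have h3 : F * H ≤ 2 * (Q + 1) * H := mul_le_mul_of_nonneg_right hf (by linarith)
  have hexp : (|s| + 1) * (F * H + 2 * E * Q ^ 2 + 1)
      = |s| * F * H + |s| * E * (2 * Q ^ 2) + |s| + F * H + 2 * E * Q ^ 2 + 1 := by ring
  rw [hexp]
  nlinarith

lemma geom_X₀ (α β : ℝ) (hαβ : α ^ 2 + β ^ 2 = 1) (v₁ v₂ Q H : ℝ) (hQ : 1 ≤ Q) (hH : 1 ≤ H)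
    (hv₁ : |v₁| ≤ Q + 1) (hv₂ : |v₂| ≤ Q + 1) (he : |α * v₁ + β * v₂| ≤ 1 / (Q + 1)) :
    |β * v₁ - α * v₂| * H + 2 * |α * v₁ + β * v₂| * Q ^ 2 + 1 ≤ 7 * Q * H := by
  obtain ⟨hf, he2⟩ := geom_bounds α β hαβ v₁ v₂ Q hQ hv₁ hv₂ he
  have h3 : |β * v₁ - α * v₂| * H ≤ 2 * (Q + 1) * H := mul_le_mul_of_nonneg_right hf (by linarith)
  nlinarith

/-- The core contradiction: a long piece of a path in a thin long rectangle cannot exist. -/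
theorem core_bound (D : ℝ) (Δ : ℕ) (hΔ1 : 1 ≤ Δ) (hDΔ : D ≤ Δ) (A : ℝ) (hAdef : A = Real.log (((2 * Δ + 1) ^ 2 : ℕ) : ℝ) + 2)
    (hA : 0 ≤ A) (a₁ : ℕ) (ha₁ : A + 1 ≤ a₁) (T : ℕ) (k : ℕ) (hk1 : 1 ≤ k)
    (hnum : ∀ M s : ℕ, M ≤ k ^ (3 * T) → s ≤ M →
      ((2 * (M : ℝ) + 1) ^ 2 + (((2 * Δ + 1) ^ 2 : ℕ) : ℝ) ^ k *
        (14 * ((2 : ℝ) ^ k) * ((k : ℝ) ^ ((4 + (3 * T + 2) * 8 * a₁) * k)) ^ 2 *
            (2 * Real.exp (-((k : ℝ) * (Real.log (((2 * Δ + 1) ^ 2 : ℕ) : ℝ) + 2))))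
          + 7 * ((k : ℝ) ^ ((4 + (3 * T + 2) * 8 * a₁) * k)) * (2 : ℝ) ^ k *
            (1 + (k : ℝ) * s) ^ (8 * k * a₁)))
      < ((k : ℝ) ^ ((4 + (3 * T + 2) * 8 * a₁) * k)) ^ 2 / ((Δ : ℝ) * k) - 1)
    (S : Finset ℕ) (M : ℕ) (hM : M ≤ k ^ (3 * T))
    (hS : ∀ p ∈ S, p.Prime ∧ p % 4 = 1 ∧ 2 * (k * Δ) ^ 2 < p ∧ p ≤ M)
    (hlo : A ≤ ∑ p ∈ S, (1 : ℝ) / p) (hhi : ∑ p ∈ S, (1 : ℝ) / p ≤ A + 1)
    (γ : ℕ → GaussianInt) (t₀ : ℕ)
    (hprime : ∀ t < t₀, Irreducible (γ t))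
    (hinj : ∀ t < t₀, ∀ t' < t₀, γ t = γ t' → t = t')
    (hstep : ∀ t, t + 1 < t₀ → gdist (γ t) (γ (t + 1)) ≤ D)
    (α β : ℝ) (hαβ : α ^ 2 + β ^ 2 = 1)
    (hg : ∀ t < t₀, ∀ t' < t₀, |α * (((γ t).re : ℝ) - ((γ t').re : ℝ))
        + β * (((γ t).im : ℝ) - ((γ t').im : ℝ))| ≤ (2 : ℝ) ^ k)
    (hh : ∀ t < t₀, ∀ t' < t₀, |β * (((γ t).re : ℝ) - ((γ t').re : ℝ))
        - α * (((γ t).im : ℝ) - ((γ t').im : ℝ))|
        ≤ 2 * ((k : ℝ) ^ ((4 + (3 * T + 2) * 8 * a₁) * k)) ^ 2)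
    (hlong : ((k : ℝ) ^ ((4 + (3 * T + 2) * 8 * a₁) * k)) ^ 2 ≤ (t₀ : ℝ) * Δ) : False := by
  classical
  set C₂ : ℕ := 4 + (3 * T + 2) * 8 * a₁ with hC₂
  have hkR : (1 : ℝ) ≤ k := by exact_mod_cast hk1
  set Q : ℕ := k ^ (C₂ * k) with hQdef
  have hQcast : (Q : ℝ) = (k : ℝ) ^ (C₂ * k) := by rw [hQdef]; push_cast; rfl
  rw [← hQcast] at hnum hh hlong
  have hQpos : 0 < Q := by rw [hQdef]; positivity
  have hQ1 : (1 : ℝ) ≤ Q := by exact_mod_cast hQpos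
  obtain ⟨v₁, v₂, hcop, hv₁, hv₂, he⟩ := exists_dir α β hαβ Q hQpos
  have hcop' := hcop
  obtain ⟨a, c, hac⟩ := hcop'
  set H : ℝ := (2 : ℝ) ^ k with hH
  have hH1 : 1 ≤ H := one_le_pow₀ (by norm_num)
  set E := |α * (v₁ : ℝ) + β * v₂| with hE
  set F := |β * (v₁ : ℝ) - α * v₂| with hF
  set X₀ : ℝ := F * H + 2 * E * (Q : ℝ) ^ 2 + 1 with hX₀
  have hX₀pos : 0 < X₀ := by positivity
  have hX₀le : X₀ ≤ 7 * Q * H := geom_X₀ α β hαβ v₁ v₂ Q H hQ1 hH1 hv₁ hv₂ he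
  set W : ℝ := 14 * H * (Q : ℝ) ^ 2 with hW
  have hW0 : 0 ≤ W := by positivity
  let X : ℕ → ℤ := fun t => (γ t).re
  let Y : ℕ → ℤ := fun t => (γ t).im
  have hSpr : ∀ p ∈ S, p.Prime ∧ p % 4 = 1 := fun p hp => ⟨(hS p hp).1, (hS p hp).2.1⟩
  have hSp : ∀ p ∈ S, 2 * (k * Δ) ^ 2 < p := fun p hp => (hS p hp).2.2.1
  have hkp : ∀ p ∈ S, k ≤ p := by
    intro p hp
    have h1 := hSp p hp
    have h2 : k ≤ (k * Δ) ^ 2 := by
      have h3 : k ≤ k * Δ := Nat.le_mul_of_pos_right k (by omega)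
      have h4 : k * Δ ≤ (k * Δ) ^ 2 := Nat.le_self_pow (by norm_num) _
      omega
    omega
  have hScard : S.card ≤ M := by
    have h1 : S ⊆ Finset.Ioc 0 M := by
      intro p hp
      rw [Finset.mem_Ioc]
      exact ⟨(hS p hp).1.pos, (hS p hp).2.2.2⟩
    simpa using Finset.card_le_card h1
  have hstepR : ∀ t, t + 1 < t₀ → gdist (γ t) (γ (t + 1)) ≤ Δ := fun t ht => (hstep t ht).trans hDΔ
  have hmain := block_count k Δ M hk1 S hSpr hSp hkp A hA a₁ hlo (hhi.trans ha₁) X Y t₀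
    (by
      intro i hi j hj hx hy
      exact hinj i hi j hj (Zsqrtd.ext hx hy))
    (by
      intro t ht
      have h1 := (abs_re_le (γ t) (γ (t + 1))).trans (hstepR t ht)
      rw [abs_sub_comm] at h1
      have h2 : |(((γ (t + 1)).re - (γ t).re : ℤ) : ℝ)| ≤ ((Δ : ℤ) : ℝ) := by
        push_cast; exact h1
      exact_mod_cast h2)
    (by
      intro t ht
      have h1 := (abs_im_le (γ t) (γ (t + 1))).trans (hstepR t ht)
      rw [abs_sub_comm] at h1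
      have h2 : |(((γ (t + 1)).im - (γ t).im : ℤ) : ℝ)| ≤ ((Δ : ℤ) : ℝ) := by
        push_cast; exact h1
      exact_mod_cast h2)
    (by
      intro t ht p hp hdvd
      have h1 := norm_eq_of_dvd (γ t) (hprime t ht) p (hS p hp).1 (hS p hp).2.1 hdvd
      have h2 : (p : ℤ) ≤ M := by exact_mod_cast (hS p hp).2.2.2
      show (γ t).re ^ 2 + (γ t).im ^ 2 ≤ M
      omega)
    v₁ v₂ a c hac X₀ W hX₀pos hW0
    (by
      intro t ht t' ht'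
      have h1 := geom_rows α β hαβ v₁ v₂ Q H
        (((γ t).re : ℝ) - ((γ t').re : ℝ)) (((γ t).im : ℝ) - ((γ t').im : ℝ))
        (hg t ht t' ht') (hh t ht t' ht')
      have h2 : ((v₁ * Y t - v₂ * X t - (v₁ * Y t' - v₂ * X t') : ℤ) : ℝ)
          = (v₁ : ℝ) * (((γ t).im : ℝ) - ((γ t').im : ℝ))
            - (v₂ : ℝ) * (((γ t).re : ℝ) - ((γ t').re : ℝ)) := by
        simp only [X, Y]
        push_cast
        ring
      rw [h2]
      exact h1)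
    (by
      intro t ht t' ht' s hsx hsy
      have hsx' : ((γ t).re : ℝ) - ((γ t').re : ℝ) = s * v₁ := by
        have : (((γ t).re - (γ t').re : ℤ) : ℝ) = ((s * v₁ : ℤ) : ℝ) := by
          exact_mod_cast hsx
        push_cast at this
        exact this
      have hsy' : ((γ t).im : ℝ) - ((γ t').im : ℝ) = s * v₂ := by
        have : (((γ t).im - (γ t').im : ℤ) : ℝ) = ((s * v₂ : ℤ) : ℝ) := by
          exact_mod_cast hsy
        push_cast at this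
        exact this
      have h1 := hg t ht t' ht'
      have h2 := hh t ht t' ht'
      rw [hsx', hsy'] at h1 h2
      apply geom_len α β hαβ v₁ v₂ hcop Q H hQ1 hH1 hv₁ hv₂ he
      · have : (s : ℝ) * (α * v₁ + β * v₂) = α * (s * v₁) + β * (s * v₂) := by ring
        rw [this]; exact h1
      · have : (s : ℝ) * (β * v₁ - α * v₂) = β * (s * v₁) - α * (s * v₂) := by ring
        rw [this]; exact h2)
  have hnum' := hnum M S.card hM hScard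
  rw [hAdef] at hmain
  have hsm : ((2 * Δ + 1) ^ 2 : ℕ) = (2 * Δ + 1) ^ 2 := rfl
  set b : ℝ := (((2 * Δ + 1) ^ 2 : ℕ) : ℝ) with hb
  have hb0 : 0 ≤ b ^ k := by positivity
  set ε : ℝ := 2 * Real.exp (-((k : ℝ) * (Real.log b + 2))) with hε
  have hε0 : 0 ≤ ε := by positivity
  set R : ℝ := (1 + (k : ℝ) * S.card) ^ (8 * k * a₁) with hR
  have hR0 : 0 ≤ R := by positivity
  have hrhs : (2 * (M : ℝ) + 1) ^ 2 + b ^ k * (W * ε + X₀ * R)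
      ≤ (2 * (M : ℝ) + 1) ^ 2 + b ^ k * (14 * H * (Q : ℝ) ^ 2 * ε + 7 * (Q : ℝ) * H * R) := by
    have := mul_le_mul_of_nonneg_right hX₀le hR0
    have h2 : b ^ k * (W * ε + X₀ * R) ≤ b ^ k * (W * ε + 7 * (Q : ℝ) * H * R) :=
      mul_le_mul_of_nonneg_left (by linarith) hb0
    rw [hW] at h2 ⊢
    linarith
  -- lower bound for the number of blocks
  have hblocks : (Q : ℝ) ^ 2 / ((Δ : ℝ) * k) - 1 ≤ (((t₀ - 1) / k : ℕ) : ℝ) := by
    have h1 : t₀ - 1 < k * ((t₀ - 1) / k + 1) := Nat.lt_mul_div_succ _ (by omega)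
    have h2 : t₀ ≤ k * ((t₀ - 1) / k + 1) := by omega
    have h3 : (t₀ : ℝ) ≤ (k : ℝ) * ((((t₀ - 1) / k : ℕ) : ℝ) + 1) := by exact_mod_cast h2
    have hΔ0 : (0 : ℝ) < Δ := by exact_mod_cast hΔ1
    have hk0 : (0 : ℝ) < k := by linarith
    have h4 : (Q : ℝ) ^ 2 ≤ (((t₀ - 1) / k : ℕ) : ℝ) + 1 → True := fun _ => trivial
    have h5 : (Q : ℝ) ^ 2 / ((Δ : ℝ) * k) ≤ ((((t₀ - 1) / k : ℕ) : ℝ) + 1) := by
      rw [div_le_iff₀ (by positivity)]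
      calc (Q : ℝ) ^ 2 ≤ (t₀ : ℝ) * Δ := hlong
        _ ≤ ((k : ℝ) * ((((t₀ - 1) / k : ℕ) : ℝ) + 1)) * Δ :=
            mul_le_mul_of_nonneg_right h3 hΔ0.le
        _ = ((((t₀ - 1) / k : ℕ) : ℝ) + 1) * ((Δ : ℝ) * k) := by ring
    linarith
  linarith

/-- **Width theorem.** A path of Gaussian primes with steps at most `D` inside a strip of width
`2 ^ k`, in any direction, has all its vertices within distance `k ^ (C * k)`. -/
theorem width_bound (D : ℝ) (_hD : 0 < D) : ∃ C k₀ : ℕ, ∀ k, k₀ ≤ k → ∀ (n : ℕ) (γ : ℕ → GaussianInt),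
    IsPrimePath D n γ → ∀ α β c : ℝ, α ^ 2 + β ^ 2 = 1 →
    (∀ i < n, |α * ((γ i).re : ℝ) + β * ((γ i).im : ℝ) - c| ≤ (2 : ℝ) ^ k / 2) →
    ∀ i < n, ∀ j < n, gdist (γ i) (γ j) < (k : ℝ) ^ (C * k) := by
  classical
  set Δ : ℕ := ⌈D⌉₊ + 1 with hΔ
  have hΔ1 : 1 ≤ Δ := by omega
  have hDΔ : D ≤ Δ := by
    rw [hΔ]; push_cast
    linarith [Nat.le_ceil D]
  obtain ⟨A, hAdef⟩ : ∃ A : ℝ, A = Real.log (((2 * Δ + 1) ^ 2 : ℕ) : ℝ) + 2 := ⟨_, rfl⟩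
  have hA : 0 ≤ A := by
    rw [hAdef]
    have := Real.log_natCast_nonneg ((2 * Δ + 1) ^ 2)
    linarith
  set a₁ : ℕ := ⌈A⌉₊ + 1 with ha₁
  have ha₁1 : 1 ≤ a₁ := by omega
  have ha₁A : A + 1 ≤ a₁ := by
    rw [ha₁]; push_cast
    linarith [Nat.le_ceil A]
  obtain ⟨T, P₀, hT, hP⟩ := exists_primes A hA
  obtain ⟨k₁, hk₁2, hnum⟩ := numeric Δ T a₁ hΔ1 ha₁1
  set C₂ : ℕ := 4 + (3 * T + 2) * 8 * a₁ with hC₂
  refine ⟨2 * C₂ + 1, k₁ + P₀ + 2 * Δ ^ 2 + 1, fun k hk n γ hγ α β c hαβ hstrip => ?_⟩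
  obtain ⟨hγ1, hγ2, hγ3⟩ := hγ
  have hk2 : 2 ≤ k := by omega
  have hkR : (2 : ℝ) ≤ k := by exact_mod_cast hk2
  have hk0 : (0 : ℝ) < k := by linarith
  have hk1 : (1 : ℝ) ≤ k := by linarith
  suffices key : ∀ i j, i < j → j < n → gdist (γ i) (γ j) < (k : ℝ) ^ ((2 * C₂ + 1) * k) by
    intro i hi j hj
    rcases lt_trichotomy i j with h | h | h
    · exact key i j h hj
    · subst h
      have : gdist (γ i) (γ i) = 0 := by simp [gdist]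
      rw [this]
      positivity
    · rw [gdist_comm]
      exact key j i h hi
  intro i j hij hj
  by_contra hcon
  push Not at hcon
  -- the parameters
  set P : ℕ := 2 * (k * Δ) ^ 2 + 1 with hPdef
  have hPP₀ : P₀ ≤ P := by
    have h1 : k ≤ k * Δ := Nat.le_mul_of_pos_right k (by omega)
    have h2 : k * Δ ≤ (k * Δ) ^ 2 := Nat.le_self_pow (by norm_num) _
    omega
  have hPk : P ≤ k ^ 3 := by
    have h1 : 2 * Δ ^ 2 + 1 ≤ k := by omega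
    have h2 : 1 ≤ k ^ 2 := Nat.one_le_pow _ _ (by omega)
    calc P = 2 * Δ ^ 2 * k ^ 2 + 1 := by rw [hPdef]; ring
      _ ≤ 2 * Δ ^ 2 * k ^ 2 + k ^ 2 := by omega
      _ = (2 * Δ ^ 2 + 1) * k ^ 2 := by ring
      _ ≤ k * k ^ 2 := Nat.mul_le_mul_right _ h1
      _ = k ^ 3 := by ring
  obtain ⟨S, hS, hlo, hhi⟩ := hP P hPP₀
  set M : ℕ := P ^ T with hMdef
  have hM : M ≤ k ^ (3 * T) := by
    rw [pow_mul]
    exact Nat.pow_le_pow_left hPk T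
  set Q : ℝ := (k : ℝ) ^ (C₂ * k) with hQ
  have hQ1 : 1 ≤ Q := one_le_pow₀ hk1
  -- the long coordinate
  let hf : ℕ → ℝ := fun t => β * ((γ (i + t)).re : ℝ) - α * ((γ (i + t)).im : ℝ)
  have hfdiff : ∀ t t', hf t - hf t' = β * (((γ (i + t)).re : ℝ) - ((γ (i + t')).re : ℝ))
      - α * (((γ (i + t)).im : ℝ) - ((γ (i + t')).im : ℝ)) := by
    intro t t'
    simp only [hf]
    ring
  -- strip bound
  have hg : ∀ t t', i + t < n → i + t' < n → |α * (((γ (i + t)).re : ℝ) - ((γ (i + t')).re : ℝ))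
      + β * (((γ (i + t)).im : ℝ) - ((γ (i + t')).im : ℝ))| ≤ (2 : ℝ) ^ k := by
    intro t t' ht ht'
    have h1 := hstrip _ ht
    have h2 := hstrip _ ht'
    rw [abs_le] at h1 h2 ⊢
    constructor <;> nlinarith [h1.1, h1.2, h2.1, h2.2]
  -- distance gives a long coordinate
  set d := j - i with hd
  have hjd : i + d = j := by omega
  have hid : i + 0 = i := rfl
  have hlong0 : Q ^ 2 ≤ |hf d - hf 0| := by
    have h1 : gdist (γ j) (γ i) ^ 2 = (hf d - hf 0) ^ 2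
        + (α * (((γ (i + d)).re : ℝ) - ((γ (i + 0)).re : ℝ))
          + β * (((γ (i + d)).im : ℝ) - ((γ (i + 0)).im : ℝ))) ^ 2 := by
      rw [gdist_sq, hfdiff, hjd, hid]
      linear_combination (-(((γ j).re : ℝ) - ((γ i).re : ℝ)) ^ 2
        - (((γ j).im : ℝ) - ((γ i).im : ℝ)) ^ 2) * hαβ
    have h2 := hg d 0 (by omega) (by omega)
    have h3 : (2 : ℝ) ^ k ≤ Q := by
      calc (2 : ℝ) ^ k ≤ (k : ℝ) ^ k := pow_le_pow_left₀ (by norm_num) hkR k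
        _ ≤ Q := by
            apply pow_le_pow_right₀ hk1
            exact Nat.le_mul_of_pos_left k (by omega)
    have h4 : (α * (((γ (i + d)).re : ℝ) - ((γ (i + 0)).re : ℝ))
          + β * (((γ (i + d)).im : ℝ) - ((γ (i + 0)).im : ℝ))) ^ 2 ≤ (Q ^ 2) ^ 2 := by
      rw [← sq_abs]
      apply pow_le_pow_left₀ (abs_nonneg _)
      refine h2.trans (h3.trans ?_)
      nlinarith
    have h5 : 2 * Q ^ 2 ≤ gdist (γ j) (γ i) := by
      rw [gdist_comm]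
      refine le_trans ?_ hcon
      have h6 : (k : ℝ) ^ ((2 * C₂ + 1) * k) = (k : ℝ) ^ k * Q ^ 2 := by
        rw [hQ, ← pow_mul, ← pow_add]
        congr 1
        ring
      rw [h6]
      apply mul_le_mul_of_nonneg_right _ (by positivity)
      calc (2 : ℝ) ≤ k := hkR
        _ = (k : ℝ) ^ 1 := (pow_one _).symm
        _ ≤ (k : ℝ) ^ k := pow_le_pow_right₀ hk1 (by omega)
    have h7 : (2 * Q ^ 2) ^ 2 ≤ gdist (γ j) (γ i) ^ 2 :=
      pow_le_pow_left₀ (by positivity) h5 2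
    have h8 : (Q ^ 2) ^ 2 ≤ (hf d - hf 0) ^ 2 := by
      have h9 : 0 ≤ (Q ^ 2) ^ 2 := by positivity
      nlinarith
    exact abs_le_of_sq_le_sq' (a := Q ^ 2) (b := |hf d - hf 0|) (by rwa [sq_abs]) (abs_nonneg _) |>.2
  -- first exit
  let pr : ℕ → Prop := fun t => i + t < n ∧ Q ^ 2 ≤ |hf t - hf 0|
  have hex : ∃ t, pr t := ⟨d, by omega, hlong0⟩
  set t₀ := Nat.find hex with ht₀
  have hspec : pr t₀ := Nat.find_spec hex
  have hmin : ∀ t, t < t₀ → ¬ pr t := fun t ht => Nat.find_min hex ht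
  have hidx : ∀ t, t ≤ t₀ → i + t < n := fun t ht => by
    have := hspec.1
    omega
  have hin : ∀ t, t < t₀ → |hf t - hf 0| < Q ^ 2 := by
    intro t ht
    have h1 := hmin t ht
    simp only [pr, not_and, not_le] at h1
    exact h1 (hidx t ht.le)
  -- Lipschitz
  have hlip : ∀ t, i + t < n → |hf t - hf 0| ≤ t * D := by
    intro t
    induction t with
    | zero =>
      intro _
      simp
    | succ t ih =>
      intro ht
      have h1 := ih (by omega)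
      have h2 := hγ3 (i + t) (by omega)
      have h3 := abs_rot_le α β hαβ (γ (i + (t + 1))) (γ (i + t))
      have h4 : gdist (γ (i + (t + 1))) (γ (i + t)) ≤ D := by
        rw [gdist_comm]; exact h2
      rw [← hfdiff] at h3
      have h5 : hf (t + 1) - hf 0 = (hf (t + 1) - hf t) + (hf t - hf 0) := by ring
      rw [h5]
      refine (abs_add_le _ _).trans ?_
      push_cast
      linarith
  have hD0 : (0 : ℝ) ≤ Δ := Nat.cast_nonneg Δ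
  have hlong : Q ^ 2 ≤ (t₀ : ℝ) * Δ := by
    have h1 := hlip t₀ hspec.1
    have h2 := hspec.2
    have h3 : (t₀ : ℝ) * D ≤ (t₀ : ℝ) * Δ := mul_le_mul_of_nonneg_left hDΔ (by positivity)
    linarith
  refine core_bound D Δ hΔ1 hDΔ A hAdef hA a₁ ha₁A T k (by omega)
    (hnum k (by omega)) S M hM
    (fun p hp => ⟨(hS p hp).1, (hS p hp).2.1, ?_, (hS p hp).2.2.2⟩) hlo hhi
    (fun t => γ (i + t)) t₀ ?_ ?_ ?_ α β hαβ ?_ ?_ hlong
  · have := (hS p hp).2.2.1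
    omega
  · intro t ht
    exact hγ1 _ (hidx t ht.le)
  · intro t ht t' ht' h
    have := hγ2 _ (hidx t ht.le) _ (hidx t' ht'.le) h
    omega
  · intro t ht
    have h1 := hidx (t + 1) (by omega)
    exact hγ3 (i + t) (by omega)
  · intro t ht t' ht'
    exact hg t t' (hidx t ht.le) (hidx t' ht'.le)
  · intro t ht t' ht'
    show |β * (((γ (i + t)).re : ℝ) - ((γ (i + t')).re : ℝ))
        - α * (((γ (i + t)).im : ℝ) - ((γ (i + t')).im : ℝ))| ≤ 2 * Q ^ 2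
    rw [← hfdiff]
    have h1 := hin t ht
    have h2 := hin t' ht'
    have h3 : hf t - hf t' = (hf t - hf 0) - (hf t' - hf 0) := by ring
    rw [h3]
    refine (abs_sub _ _).trans ?_
    linarith

end Vale.Agent.Lib.P015
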